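import Vale.Agent.P247X.Base
import Vale.Agent.P247G.Defs

/-!
# P247, block G: markings of any rank; the statements which depend on the rank
-/

set_option linter.all false

open scoped Manifold ContDiff Topology
open Set MeasureTheory Filter Metric

noncomputable section

namespace Vale.Agent.P247X.J

export Vale.Agent.P247G (Root PosT LMove Wall DK IsEU PERIOD_statement)

open Vale.Agent.P247.SCY
open Vale.Agent.P247.SCY.HS
open Vale.Agent.P290.H726 (bil)
open Vale.Agent.P290Z.Lat (cs)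

section defs

variable {X : Type} [TopologicalSpace X] [ChartedSpace HS.E4 X]

/-- A marking: a basis of `H²` by Chern forms, with an even unimodular Gram matrix. -/
structure Marking [MeasurableSpace X] (μ : Form X 4) where
  n : ℕ
  G : Matrix (Fin n) (Fin n) ℤ
  k3 : IsEU G
  c : Fin n → Form X 2
  sc : ∀ i, SC (c i)
  gram : ∀ i j, pair μ (c i) (c j) = G i j
  span : ∀ α : Form X 2, SC α → ∃ v, Coh α (lc c v)
  int : ∀ v : Fin n → ℤ, ∃ L : LB X, L.F = lc c (cs ℝ v)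

/-- the triple `w` has the periods `a` -/
def Marking.Rep [MeasurableSpace X] {μ : Form X 4} (M : Marking μ) (w : Tri X)
    (a : Fin 3 → Fin M.n → ℝ) : Prop := ∀ i, Coh (w i) (lc M.c (a i))

end defs

def NM_statement : Prop := ∀ (X : Type) [Cl4 X] (μ : Form X 4), Top0 μ → ∀ M : Marking μ,
  ∀ w : Tri X, Hypersymplectic μ w → ∀ k, M.Rep w k → ∀ a : Fin M.n → ℝ,
  (∀ s ∈ Icc (0 : ℝ) 1, PosT M.G ![k 0, k 1, (1 - s) • k 2 + s • a]) →
  (∃ τ, Coh τ (lc M.c a) ∧ Move μ w ![w 0, w 1, τ]) ∨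
  ∃ (S : Sph (Jw w)) (ρ : Fin M.n → ℤ), Root M.G ρ ∧ IsCls μ S.int (lc M.c (cs ℝ ρ)) ∧
    bil M.G (cs ℝ ρ) a ≤ 0

def CH1_statement : Prop := ∀ (X : Type) [Cl4 X] (μ : Form X 4), Top0 μ → ∀ M : Marking μ,
  ∀ w : Tri X, Hypersymplectic μ w → ∀ a a', M.Rep w a → LMove M.G a a' →
  ∃ w', Move μ w w' ∧ M.Rep w' a'

def CH2_statement : Prop := ∀ (X : Type) [Cl4 X] (μ : Form X 4), Top0 μ → ∀ M : Marking μ,
  ∀ w : Tri X, Hypersymplectic μ w → ∀ k r, M.Rep w k → Wall M.G k r →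
  ∃ S : Sph (Jw w), IsCls μ S.int (lc M.c (cs ℝ r))

def FREE_statement : Prop := ∀ (X : Type) [Cl4 X] (μ : Form X 4), Top0 μ → Nonempty (Marking μ) →
  ∀ w w' : Tri X, Chain μ w w' → IntPair μ w' → Normalized μ w →
  ∃ W, Deformation μ w W ∧ Hyperkahler μ (W 1)

def KUM_statement : Prop := ∀ (X : Type) [Cl4 X] (μ : Form X 4), Top0 μ → ∀ (M : Marking μ)
  (K : DK M.G) (w : Tri X), Hypersymplectic μ w → M.Rep w K.k →
  ∀ St : Fin 4 → Fin 4 → Std w,
  (∀ i j i' j', (i, j) ≠ (i', j') → Disjoint (St i j).nb (St i' j').nb) →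
  (∀ i j, IsCls μ (fun φ => ∫ z, pull2 φ (fun ζ => (St i j).p (0, ζ)) z)
    (lc M.c (cs ℝ (K.d i j)))) →
  ∀ C D : Fin 4 → Sph (Jw w), (∀ i, IsCls μ (C i).int (lc M.c (cs ℝ (K.C i)))) →
  (∀ j, IsCls μ (D j).int (lc M.c (cs ℝ (K.D j)))) → Nonempty (KP w)

section pair

variable {X : Type} [Cl4 X] {μ : Form X 4} {w : Tri X} (hμ : Volume μ) (hw : Hypersymplectic μ w)
include hμ hw

theorem Marking.pair_lc (M : Marking μ) (v v' : Fin M.n → ℝ) :
    pair μ (lc M.c v) (lc M.c v') = bil M.G v v' := by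
  rw [pair_lc_left hμ hw M.sc v (sc_lc M.sc v').1, bil]
  refine Finset.sum_congr rfl fun i _ => ?_
  rw [P247.SCY.pair_comm, pair_lc_left hμ hw M.sc v' (M.sc i).1, Finset.mul_sum]
  refine Finset.sum_congr rfl fun j _ => ?_
  rw [P247.SCY.pair_comm, M.gram]
  ring

theorem Marking.pair_rep (M : Marking μ) {a : Fin 3 → Fin M.n → ℝ} (h : M.Rep w a)
    (v : Fin M.n → ℝ) (i : Fin 3) : pair μ (lc M.c v) (w i) = bil M.G v (a i) := by
  rw [P247.SCY.pair_comm, (h i).pair hμ hw (hw.smooth i) (sc_lc M.sc _).1 (sc_lc M.sc _),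
    P247.SCY.pair_comm, M.pair_lc hμ hw]

end pair

theorem bil_cs {n : ℕ} (G : Matrix (Fin n) (Fin n) ℤ) (u v : Fin n → ℤ) :
    bil G (cs ℝ u) (cs ℝ v) = ((bil G u v : ℤ) : ℝ) := by
  simp [bil, cs]

end Vale.Agent.P247X.J

namespace Vale.Agent.P247F.J

export Vale.Agent.P247G (Root PosT LMove Wall DK IsEU)
export Vale.Agent.P247X.J (Marking NM_statement CH1_statement CH2_statement FREE_statement)

end Vale.Agent.P247F.J

namespace Vale.Agent.P247Y.J

export Vale.Agent.P247G (Root PosT LMove Wall DK IsEU)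
export Vale.Agent.P247X.J (Marking KUM_statement bil_cs)

end Vale.Agent.P247Y.J
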