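import Vale.Agent.P247F.Free
import Vale.Agent.P247O.Spec

/-!
# P247, block G: block F for markings of any rank
-/

set_option linter.all false

open scoped BigOperators ContDiff Topology Manifold
open Set Filter MeasureTheory

namespace Vale.Agent.P247F.J

section A
open Vale.Agent.P204.Mfd hiding bil
open Vale.Agent.P247.SCY Vale.Agent.P247.SCY.HS
open Vale.Agent.P247X (Cl4 Cont SC lc PCur IsCls LinC EndF Jw PosF Sph)
open Vale.Agent.P290.H726
open Vale.Agent.P290Z.Lat (cs)

/-- vectors orthogonal to a positive triple are negative -/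
theorem neg_of_perp {n : ℕ} {G : Matrix (Fin n) (Fin n) ℤ} (hG : IsEU G) {p : Fin 3 → Fin n → ℝ}
    (hp : PosT G p) {t : Fin n → ℝ} (ht : t ≠ 0) (h : ∀ i, bil G t (p i) = 0) : bil G t t < 0 := by
  by_contra hcon
  push Not at hcon
  obtain ⟨w, -, hw⟩ := hG.sig
  let f : (Fin 4 → ℝ) →ₗ[ℝ] (Fin 3 → ℝ) :=
    { toFun := fun a j => a 0 * bil G (p 0) (w j) + a 1 * bil G (p 1) (w j) +
        a 2 * bil G (p 2) (w j) + a 3 * bil G t (w j)
      map_add' := fun a b => by funext j; simp only [Pi.add_apply]; ring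
      map_smul' := fun c a => by
        funext j; simp only [Pi.smul_apply, smul_eq_mul, RingHom.id_apply]; ring }
  obtain ⟨a, ha, ha0⟩ := (Submodule.ne_bot_iff _).1
    (LinearMap.ker_ne_bot_of_finrank_lt (f := f) (by simp))
  have hq : ∀ b : Fin 3 → ℝ, star b ⬝ᵥ (Matrix.of fun i j => bil G (p i) (p j)).mulVec b =
      bil G (b 0 • p 0 + b 1 • p 1 + b 2 • p 2) (b 0 • p 0 + b 1 • p 1 + b 2 • p 2) := by
    intro b
    simp only [dotProduct, Matrix.mulVec, Fin.sum_univ_three, Matrix.of_apply, star_trivial,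
      bil_add_left, bil_add_right, bil_smul_left, bil_smul_right]
    ring
  set y := a 0 • p 0 + a 1 • p 1 + a 2 • p 2 with hy
  have hty : bil G t y = 0 := by
    simp only [hy, bil_add_right, bil_smul_right, h, mul_zero, add_zero]
  have hyt : bil G y t = 0 := by rw [bil_symm G hG.symm]; exact hty
  have hyy : 0 ≤ bil G y y := by
    have := hp.posSemidef.dotProduct_mulVec_nonneg ![a 0, a 1, a 2]
    rw [hq] at this
    exact this
  have hx : y + a 3 • t ≠ 0 := by
    intro h0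
    have h1 : bil G (y + a 3 • t) y = 0 := by rw [h0, bil_zero_left]
    rw [bil_add_left, bil_smul_left, hty, mul_zero, add_zero] at h1
    have h2 : (![a 0, a 1, a 2] : Fin 3 → ℝ) = 0 := by
      by_contra h3
      have := hp.dotProduct_mulVec_pos h3
      rw [hq] at this
      exact this.ne' h1
    have e0 : a 0 = 0 := congrFun h2 0
    have e1 : a 1 = 0 := congrFun h2 1
    have e2 : a 2 = 0 := congrFun h2 2
    have e3 : a 3 = 0 := by
      rw [hy, e0, e1, e2] at h0
      simp only [zero_smul, add_zero, zero_add, smul_eq_zero] at h0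
      exact h0.resolve_right ht
    apply ha0
    funext i
    fin_cases i
    · exact e0
    · exact e1
    · exact e2
    · exact e3
  have h4 := hw _ hx (fun j => by
    have := congrFun (LinearMap.mem_ker.1 ha) j
    simp only [hy, bil_add_left, bil_smul_left]
    exact this)
  clear_value y
  simp only [bil_add_left, bil_add_right, bil_smul_left, bil_smul_right, hty, hyt] at h4
  nlinarith [mul_nonneg (mul_self_nonneg (a 3)) hcon]

/-- solving `G v = b` -/
theorem exists_dual {n : ℕ} {G : Matrix (Fin n) (Fin n) ℤ} (hG : IsEU G) (b : Fin n → ℝ) :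
    ∃ v : Fin n → ℝ, (∀ u, bil G v u = ∑ i, u i * b i) ∧
      ((∀ i, ∃ m : ℤ, b i = m) → ∃ r : Fin n → ℤ, v = cs ℝ r) := by
  have h1 : G⁻¹ * G = 1 := Matrix.nonsing_inv_mul G hG.unit
  refine ⟨fun i => ∑ k, b k * (G⁻¹ k i : ℝ), fun u => ?_, fun h => ?_⟩
  · have h2 : ∀ k j, ∑ i, (G⁻¹ k i : ℝ) * (G i j : ℝ) = if k = j then 1 else 0 := by
      intro k j
      have := congrFun (congrFun h1 k) j
      rw [Matrix.mul_apply, Matrix.one_apply] at this
      have h3 := congrArg (fun z : ℤ => (z : ℝ)) this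
      simp only [Int.cast_sum, Int.cast_mul, Int.cast_ite, Int.cast_one, Int.cast_zero] at h3
      exact h3
    unfold bil
    rw [Finset.sum_comm]
    refine Finset.sum_congr rfl fun j _ => ?_
    calc ∑ i, (G i j : ℝ) * (∑ k, b k * (G⁻¹ k i : ℝ)) * u j
        = ∑ k, b k * (∑ i, (G⁻¹ k i : ℝ) * (G i j : ℝ)) * u j := by
          simp only [Finset.mul_sum, Finset.sum_mul]
          rw [Finset.sum_comm]
          refine Finset.sum_congr rfl fun k _ => Finset.sum_congr rfl fun i _ => by ring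
      _ = u j * b j := by
          simp only [h2, mul_ite, mul_one, mul_zero, ite_mul, zero_mul, Finset.sum_ite_eq',
            Finset.mem_univ, if_true]
          ring
  · choose m hn using h
    refine ⟨fun i => ∑ k, m k * G⁻¹ k i, ?_⟩
    funext i
    simp only [cs, hn, Int.cast_sum, Int.cast_mul]

section
variable {X : Type} [Cl4 X] {μ : Form X 4}

theorem sc_lc (M : Marking μ) (v : Fin M.n → ℝ) : SC (lc M.c v) :=
  sc_sum (c := fun i x => v i • M.c i x) (fun i => sc_smul (M.sc i) _) P247X.sc_zero _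

theorem lc_single (M : Marking μ) (i : Fin M.n) : lc M.c (cs ℝ (Pi.single i 1)) = M.c i := by
  funext x
  unfold lc
  rw [Finset.sum_eq_single i]
  · simp only [cs, Pi.single_eq_same, Int.cast_one, one_smul]
  · intro j _ hj
    simp only [cs, Pi.single_eq_of_ne hj, Int.cast_zero, zero_smul]
  · simp

theorem lc_seg (M : Marking μ) (u v : Fin M.n → ℝ) (s : ℝ) :
    lc M.c ((1 - s) • u + s • v) = fun x => lc M.c u x + s • (lc M.c v x - lc M.c u x) := by
  funext x
  simp only [lc, Pi.add_apply, Pi.smul_apply, smul_eq_mul, ← Finset.sum_sub_distrib,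
    Finset.smul_sum, ← Finset.sum_add_distrib]
  refine Finset.sum_congr rfl fun i _ => ?_
  module

/-- linear functionals on combinations -/
theorem linC_lc {T : Form X 2 → ℝ} (hT : LinC T) (M : Marking μ) (v : Fin M.n → ℝ) :
    T (lc M.c v) = ∑ i, v i * T (M.c i) := by
  have key : ∀ s : Finset (Fin M.n), T (fun x => ∑ i ∈ s, v i • M.c i x) = ∑ i ∈ s, v i * T (M.c i) := by
    intro s
    induction s using Finset.induction_on with
    | empty =>
      simp only [Finset.sum_empty]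
      have := hT.smul 0 (fun _ => 0) cont_zero
      simpa only [zero_smul, zero_mul] using this
    | insert a s ha ih =>
      simp only [Finset.sum_insert ha]
      rw [hT.add (fun x => v a • M.c a x) (fun x => ∑ i ∈ s, v i • M.c i x)
        (cont_of_smooth (sc_smul (M.sc a) _).1) (cont_of_smooth (sc_sum
          (c := fun i x => v i • M.c i x) (fun i => sc_smul (M.sc i) _) P247X.sc_zero s).1),
        ih, hT.smul _ _ (cont_of_smooth (M.sc a).1)]
  exact key _

variable (hμ : Volume μ) {w : Fin 3 → Form X 2} (hw : Hypersymplectic μ w)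
include hμ hw

theorem pair_lc_left (M : Marking μ) (v : Fin M.n → ℝ) {β : Form X 2} (hβ : Smooth β) :
    pair μ (lc M.c v) β = ∑ i, v i * pair μ (M.c i) β := by
  have := pair_sum_left hμ hw (c := fun i x => v i • M.c i x) (fun i => sc_smul (M.sc i) _)
    P247X.sc_zero hβ Finset.univ
  simp only [pair_smul_left] at this
  exact this

theorem pair_lc (M : Marking μ) (u v : Fin M.n → ℝ) :
    pair μ (lc M.c u) (lc M.c v) = bil M.G u v := by
  rw [pair_lc_left hμ hw M u (sc_lc M v).1]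
  unfold bil
  refine Finset.sum_congr rfl fun i _ => ?_
  rw [P247.SCY.pair_comm, pair_lc_left hμ hw M v (M.sc i).1, Finset.mul_sum]
  refine Finset.sum_congr rfl fun j _ => ?_
  rw [P247.SCY.pair_comm, M.gram]
  ring

theorem pair_lc_coh (M : Marking μ) (u v : Fin M.n → ℝ) {β : Form X 2} (sβ : Smooth β)
    (h : P247X.Coh β (lc M.c v)) : pair μ (lc M.c u) β = bil M.G u v := by
  rw [P247.SCY.pair_comm, pair_coh hμ hw sβ (sc_lc M v).1 h (sc_lc M u), P247.SCY.pair_comm, pair_lc hμ hw]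

theorem posT_of_rep (M : Marking μ) {a : Fin 3 → Fin M.n → ℝ} (h : M.Rep w a) : PosT M.G a := by
  have h1 := pair_posDef hμ hw
  have e : (Matrix.of fun i j => pair μ (w i) (w j)) = Matrix.of fun i j => bil M.G (a i) (a j) := by
    ext i j
    simp only [Matrix.of_apply]
    rw [pair_coh hμ hw (hw.smooth i) (sc_lc M _).1 (h i) ⟨hw.smooth j, hw.closed j⟩,
      pair_lc_coh hμ hw M _ _ (hw.smooth j) (h j)]
  rw [e] at h1
  exact h1

/-- the class of a closed current -/
theorem exists_cls (M : Marking μ) {J : EndF X} {T : Form X 2 → ℝ} (hT : PCur J T) :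
    ∃ v : Fin M.n → ℝ, IsCls μ T (lc M.c v) ∧
      ((∀ i, ∃ n : ℤ, T (M.c i) = n) → ∃ r : Fin M.n → ℤ, v = cs ℝ r) := by
  obtain ⟨v, hv, hv'⟩ := exists_dual M.k3 fun i => T (M.c i)
  refine ⟨v, ⟨sc_lc M v, fun φ hφ => ?_⟩, hv'⟩
  obtain ⟨u, hu⟩ := M.span φ hφ
  rw [pair_lc_coh hμ hw M v u hφ.1 hu, hv, ← linC_lc hT.toLinC M u]
  have h1 := hT.add (lc M.c u) (fun x => φ x - lc M.c u x) (cont_of_smooth (sc_lc M u).1)
    (cont_of_smooth (smooth_sub hφ.1 (sc_lc M u).1))
  rw [hT.closed _ (smooth_sub hφ.1 (sc_lc M u).1) hu, add_zero] at h1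
  simpa only [add_sub_cancel] using h1

theorem neg_cls (M : Marking μ) {k : Fin 3 → Fin M.n → ℝ} (hk : M.Rep w k) {a : Fin M.n → ℝ}
    (ha : ∀ s ∈ Icc (0 : ℝ) 1, PosT M.G ![k 0, k 1, (1 - s) • k 2 + s • a])
    {R : Form X 2 → ℝ} (hR : PCur (Jw w) R) (h2 : 0 < R (w 2)) (h3 : R (lc M.c a) ≤ 0)
    {v : Fin M.n → ℝ} (hv : IsCls μ R (lc M.c v)) : bil M.G v v < 0 := by
  have e : ∀ j, bil M.G v (k j) = R (w j) := fun j => by
    rw [hv.2 _ ⟨hw.smooth j, hw.closed j⟩, pair_lc_coh hμ hw M _ _ (hw.smooth j) (hk j)]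
  have ea : bil M.G v a = R (lc M.c a) := by rw [hv.2 _ (sc_lc M a), pair_lc hμ hw]
  have hd : 0 < R (w 2) - R (lc M.c a) := by linarith
  set s := R (w 2) / (R (w 2) - R (lc M.c a)) with hs
  refine neg_of_perp M.k3 (ha s ⟨div_nonneg h2.le hd.le, (div_le_one hd).2 (by linarith)⟩)
    (fun h0 => ?_) fun i => ?_
  · have := e 2
    rw [h0, bil_zero_left] at this
    linarith
  · fin_cases i
    · exact (e 0).trans (pcur_anti hw hR 0 (by decide))
    · exact (e 1).trans (pcur_anti hw hR 1 (by decide))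
    · show bil M.G v ((1 - s) • k 2 + s • a) = 0
      rw [bil_add_right, bil_smul_right, bil_smul_right, e 2, ea, hs]
      field_simp
      ring

end

open P247X in
/-- an irreducible curve which is nonpositive on the class is a sphere -/
theorem nm_end (irr : IRR_statement) (emb : EMB_statement) (adj : ADJ_statement) {X : Type}
    [Cl4 X] {μ : Form X 4} (hμ : Volume μ) (M : Marking μ) {w : Fin 3 → Form X 2}
    (hw : Hypersymplectic μ w) {k : Fin 3 → Fin M.n → ℝ} (hk : M.Rep w k) {a : Fin M.n → ℝ}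
    (ha : ∀ s ∈ Icc (0 : ℝ) 1, PosT M.G ![k 0, k 1, (1 - s) • k 2 + s • a]) (K : Irr (Jw w))
    (h4 : K.T (lc M.c a) ≤ 0) : ∃ (S : Sph (Jw w)) (ρ : Fin M.n → ℤ), Root M.G ρ ∧
      IsCls μ S.int (lc M.c (cs ℝ ρ)) ∧ bil M.G (cs ℝ ρ) a ≤ 0 := by
  obtain ⟨k1, k2, -, k4, k5⟩ := irr X μ hμ w hw K
  obtain ⟨v, hv, hint⟩ := exists_cls hμ hw M k1
  obtain ⟨r, rfl⟩ := hint fun j => by
    obtain ⟨L, hL⟩ := M.int (Pi.single j 1)
    rw [← lc_single M j, ← hL]
    exact k4 L
  have h5 := neg_cls hμ hw M hk ha k1 k2 h4 hv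
  obtain ⟨a1, a2, -⟩ := adj X μ hμ w hw K _ hv
  have e1 : K.T (lc M.c (cs ℝ r)) = ((bil M.G r r : ℤ) : ℝ) := by
    rw [hv.2 _ (sc_lc M _), pair_lc hμ hw]
    exact bil_intCast_real _ _ _
  have e2 : bil M.G (cs ℝ r) (cs ℝ r) = ((bil M.G r r : ℤ) : ℝ) := bil_intCast_real _ _ _
  have hr : bil M.G r r = -2 := by
    rw [e1] at a1
    rw [e2] at h5
    have b1 : (-2 : ℤ) ≤ bil M.G r r := by exact_mod_cast a1
    have b2 : bil M.G r r < 0 := by exact_mod_cast h5
    obtain ⟨q, hq⟩ := M.k3.even r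
    omega
  obtain ⟨Sp, hSp⟩ := a2 (by rw [e1, hr]; norm_num)
  obtain ⟨K', hK1, -, hK2⟩ := (emb X μ hμ w hw).1 Sp
  refine ⟨Sp, r, hr, ⟨hv.1, fun φ hφ => ?_⟩, ?_⟩
  · rw [← hK2 φ (cont_of_smooth hφ.1), k5 K' (hK1.trans hSp) φ (cont_of_smooth hφ.1), hv.2 φ hφ]
  · rw [← pair_lc hμ hw, ← hv.2 _ (sc_lc M a)]
    exact h4

open P247X in
theorem nm (siua : SIUA_statement) (lsx : LSX_statement) (dec : DEC_statement)
    (irr : IRR_statement) (emb : EMB_statement) (adj : ADJ_statement) : NM_statement := by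
  intro X _ μ h0 M w hw k hk a ha
  have hμ := h0.vol
  by_cases hex : ∃ τ, Smooth τ ∧ P247X.Coh τ (lc M.c a) ∧ Tames τ (Jw w)
  · obtain ⟨τ, s, c, t⟩ := hex
    exact Or.inl ⟨τ, c, move_of_tames hw (sc_lc M a) s c t⟩
  right
  obtain ⟨T, hT, t1, t2, hext⟩ := exists_extreme_cur hμ hw (sc_lc M a).1
    fun τ s c t => hex ⟨τ, s, c, t⟩
  obtain ⟨t, ht, -⟩ := exists_cls hμ hw M hT
  have h1 := neg_cls hμ hw M hk ha hT (by rw [t1]; exact one_pos) t2 ht
  obtain ⟨c, S, hc, hS, ⟨x0, hx0⟩, hle⟩ := siua X μ hμ w hw T hT _ ht (by rwa [pair_lc hμ hw])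
  obtain ⟨m, K, n, hn, hsupp, hsum⟩ := dec X μ hμ w hw S hS.toPCur (lsx X μ hμ w hw S hS)
  rw [hsupp] at hx0
  obtain ⟨i, -⟩ := mem_iUnion.1 hx0
  obtain ⟨k1, k2, -⟩ := irr X μ hμ w hw (K i)
  have hni : (0 : ℝ) < n i := by exact_mod_cast hn i
  have hcn : 0 < c * n i := mul_pos hc hni
  have h3 := hext (fun φ => c * n i * (K i).T φ) (pcur_smul k1 hcn.le) (fun φ hφ hp => by
    have a1 := hle φ hφ hp
    have a2 : (n i : ℝ) * (K i).T φ ≤ ∑ j, (n j : ℝ) * (K j).T φ :=
      Finset.single_le_sum (f := fun j => (n j : ℝ) * (K j).T φ) (fun j _ =>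
        mul_nonneg (Nat.cast_nonneg _) ((irr X μ hμ w hw (K j)).1.pos φ hφ hp)) (Finset.mem_univ i)
    simp only [hsum φ hφ] at a1
    show 0 ≤ T φ - c * n i * (K i).T φ
    nlinarith)
  refine nm_end irr emb adj hμ M hw hk ha (K i) ?_
  have a1 := h3 _ (cont_of_smooth (sc_lc M a).1)
  have a2 := mul_nonpos_of_nonneg_of_nonpos (mul_pos hcn k2).le t2
  by_contra hcon
  push Not at hcon
  have := mul_pos hcn hcon
  linarith

end A

section B
open Vale.Agent.P204.Mfd hiding bil
open Vale.Agent.P247.SCY Vale.Agent.P247.SCY.HS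
open Vale.Agent.P247X hiding Coh IntPair
open Vale.Agent.P290.H726
open Vale.Agent.P290Z.Lat (cs)

section
variable {X : Type} [Cl4 X] {μ : Form X 4}

theorem sph_cls (irr : IRR_statement) (emb : EMB_statement) (hμ : Volume μ)
    {w : Fin 3 → Form X 2} (hw : Hypersymplectic μ w) (M : Marking μ)
    {k : Fin 3 → Fin M.n → ℝ} (hk : M.Rep w k) (S : Sph (Jw w)) {ρ : Fin M.n → ℝ}
    (h : IsCls μ S.int (lc M.c ρ)) :
    bil M.G ρ (k 0) = 0 ∧ bil M.G ρ (k 1) = 0 ∧ 0 < bil M.G ρ (k 2) := by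
  obtain ⟨K, -, -, hK⟩ := (emb X μ hμ w hw).1 S
  obtain ⟨k1, k2, -⟩ := irr X μ hμ w hw K
  have e : ∀ j, bil M.G ρ (k j) = K.T (w j) := fun j => by
    rw [hK _ (cont_of_smooth (hw.smooth j)), h.2 _ ⟨hw.smooth j, hw.closed j⟩,
      pair_lc_coh hμ hw M _ _ (hw.smooth j) (hk j)]
  rw [e, e, e]
  exact ⟨pcur_anti hw k1 0 (by decide), pcur_anti hw k1 1 (by decide), k2⟩

/-- lifting of a move of periods, in the same slot -/
theorem ch1_at (nm : NM_statement) (irr : IRR_statement) (emb : EMB_statement) (h0 : Top0 μ)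
    (M : Marking μ) {w : Fin 3 → Form X 2} (hw : Hypersymplectic μ w)
    {a a' : Fin 3 → Fin M.n → ℝ} (ha : M.Rep w a) (i : Fin 3) (h1 : ∀ j, j ≠ i → a' j = a j)
    (h2 : ∀ s ∈ Icc (0 : ℝ) 1, PosT M.G fun j => (1 - s) • a j + s • a' j)
    (h3 : ∀ ρ, Root M.G ρ → (∀ j, j ≠ i → bil M.G (cs ℝ ρ) (a j) = 0) →
      0 < bil M.G (cs ℝ ρ) (a i) → 0 < bil M.G (cs ℝ ρ) (a' i)) :
    ∃ w', MvAt μ i w w' ∧ M.Rep w' a' := by
  set σ : Equiv.Perm (Fin 3) := Equiv.swap i 2 with hσ
  have e2 : σ 2 = i := by simp [hσ]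
  have e0 : σ 0 ≠ i := by rw [← e2]; exact σ.injective.ne (by decide)
  have e1 : σ 1 ≠ i := by rw [← e2]; exact σ.injective.ne (by decide)
  have hw' := hyper_perm σ hw
  have ha' : M.Rep (fun j => w (σ j)) (fun j => a (σ j)) := fun j => ha (σ j)
  rcases nm X μ h0 M _ hw' _ ha' (a' i) (fun s hs => by
    have h4 := (h2 s hs).submatrix σ.injective
    have e : (![a (σ 0), a (σ 1), (1 - s) • a (σ 2) + s • a' i] : Fin 3 → Fin M.n → ℝ) =
        fun j => (1 - s) • a (σ j) + s • a' (σ j) := by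
      funext j
      fin_cases j
      · show a (σ 0) = (1 - s) • a (σ 0) + s • a' (σ 0)
        rw [h1 _ e0]; module
      · show a (σ 1) = (1 - s) • a (σ 1) + s • a' (σ 1)
        rw [h1 _ e1]; module
      · show (1 - s) • a (σ 2) + s • a' i = (1 - s) • a (σ 2) + s • a' (σ 2)
        rw [e2]
    show PosT M.G ![a (σ 0), a (σ 1), (1 - s) • a (σ 2) + s • a' i]
    rw [e]
    exact h4) with ⟨τ, c, m⟩ | ⟨S, ρ, r1, r2, r3⟩
  · have h5 := (mvAt_of_move m).of_perm σ
    rw [e2] at h5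
    refine ⟨_, h5, fun j => ?_⟩
    by_cases hj : j = i
    · have : σ.symm j = 2 := by rw [hj, ← e2, Equiv.symm_apply_apply]
      show P247X.Coh (![w (σ 0), w (σ 1), τ] (σ.symm j)) (lc M.c (a' j))
      rw [this, hj]
      exact c
    · have h6 := h5.2 j hj
      simp only at h6 ⊢
      rw [h6, h1 j hj]
      exact ha j
  · exfalso
    obtain ⟨s0, s1, s2⟩ := sph_cls irr emb h0.vol hw' M ha' S r2
    have := h3 ρ r1 (fun j hj => by
      obtain ⟨l, rfl⟩ := σ.surjective j
      fin_cases l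
      · exact s0
      · exact s1
      · exact absurd e2 hj) (by rw [← e2]; exact s2)
    linarith

end

theorem ch1 (nm : NM_statement) (irr : IRR_statement) (emb : EMB_statement) : CH1_statement := by
  intro X _ μ h0 M w hw a a' ha ⟨i, h1, h2, h3⟩
  obtain ⟨w', h4, h5⟩ := ch1_at nm irr emb h0 M hw ha i h1 h2 h3
  exact ⟨w', ⟨i, h4⟩, h5⟩

/-- no root is orthogonal to the three periods -/
theorem no_root (root : ROOT_statement) {X : Type} [Cl4 X] {μ : Form X 4} (h0 : Top0 μ)
    (M : Marking μ) {w : Fin 3 → Form X 2} (hw : Hypersymplectic μ w)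
    {a : Fin 3 → Fin M.n → ℝ} (ha : M.Rep w a) {ρ : Fin M.n → ℤ} (hρ : Root M.G ρ) :
    ∃ i, bil M.G (cs ℝ ρ) (a i) ≠ 0 := by
  by_contra hcon
  push Not at hcon
  obtain ⟨L, hL⟩ := M.int ρ
  refine root X μ h0 w hw L (fun i => ?_) ?_
  · rw [hL, pair_lc_coh h0.vol hw M _ _ (hw.smooth i) (ha i), hcon]
  · rw [hL, pair_lc h0.vol hw]
    have : bil M.G (cs ℝ ρ) (cs ℝ ρ) = ((bil M.G ρ ρ : ℤ) : ℝ) := bil_intCast_real _ _ _
    rw [this, hρ]
    norm_num

theorem ch2 (root : ROOT_statement) (nm : NM_statement) (irr : IRR_statement)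
    (emb : EMB_statement) : CH2_statement := by
  intro X _ μ h0 M w hw k r hk ⟨r1, r2, r3, a, a1, a2, a3⟩
  rcases nm X μ h0 M w hw k hk a a1 with ⟨τ, c, m⟩ | ⟨S, ρ, s1, s2, s3⟩
  · exfalso
    obtain ⟨i, hi⟩ := no_root root h0 M (mvAt_of_move m).1.hv (a := ![k 0, k 1, a]) (fun j => by
      fin_cases j
      · exact hk 0
      · exact hk 1
      · exact c) r1
    fin_cases i
    · exact hi r2
    · exact hi r3
    · exact hi a2
  · obtain ⟨t0, t1, t2⟩ := sph_cls irr emb h0.vol hw M hk S s2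
    rcases a3 ρ s1 t0 t1 t2 with rfl | h
    · exact ⟨S, s2⟩
    · linarith

/-- the taming classes depend only on the classes of the triple -/
theorem transport (root : ROOT_statement) (nm : NM_statement) (irr : IRR_statement)
    (emb : EMB_statement) {X : Type} [Cl4 X] {μ : Form X 4} (h0 : Top0 μ) (M : Marking μ)
    {k : Fin 3} {w w' v : Fin 3 → Form X 2} (h : MvAt μ k w w') (hv : Hypersymplectic μ v)
    (hc : Coh w v) : ∃ v', MvAt μ k v v' ∧ Coh w' v' := by
  have hw := h.1.hw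
  choose a ha using fun i => M.span (w i) ⟨hw.smooth i, hw.closed i⟩
  obtain ⟨b, hb⟩ := M.span (w' k) ⟨h.1.hv.smooth k, h.1.hv.closed k⟩
  set a' := Function.update a k b with ha'
  have e1 : ∀ j, j ≠ k → a' j = a j := fun j hj => Function.update_of_ne hj _ _
  have r' : M.Rep w' a' := fun j => by
    by_cases hj : j = k
    · rw [hj, ha', Function.update_self]; exact hb
    · rw [h.2 j hj, e1 j hj]; exact ha j
  have rs : ∀ s : ℝ, M.Rep (lin w w' s) fun j => (1 - s) • a j + s • a' j := fun s j => by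
    show Exact fun x => lin w w' s j x - lc M.c ((1 - s) • a j + s • a' j) x
    rw [lc_seg]
    have e : (fun x => lin w w' s j x - (lc M.c (a j) x + s • (lc M.c (a' j) x - lc M.c (a j) x))) =
        fun x => (1 - s) • (w j x - lc M.c (a j) x) + s • (w' j x - lc M.c (a' j) x) := by
      funext x
      simp only [lin]
      module
    rw [e]
    exact exact_add (exact_smul (ha j) _) (exact_smul (r' j) _)
  obtain ⟨v', m, rv⟩ := ch1_at nm irr emb h0 M hv (a := a) (a' := a')
    (fun j => exact_trans (hc j) (ha j)) k e1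
    (fun s hs => posT_of_rep h0.vol (h.1.hyper hs) M (rs s)) (fun ρ hρ h1 h2 => by
      have key := pos_of_ne (f := fun s => bil M.G (cs ℝ ρ) ((1 - s) • a k + s • a' k)) (by
        simp only [bil_add_right, bil_smul_right]
        fun_prop) (fun s hs => by
          obtain ⟨i, hi⟩ := no_root root h0 M (h.1.hyper hs) (rs s) hρ
          by_cases hik : i = k
          · rw [hik] at hi; exact hi
          · exfalso
            apply hi
            rw [e1 i hik, bil_add_right, bil_smul_right, bil_smul_right, h1 i hik]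
            ring) (by simpa using h2)
      simpa using key)
  exact ⟨v', m, fun j => exact_trans (rv j) (exact_symm (r' j))⟩

theorem free_of (root : ROOT_statement) (nm : NM_statement) (irr : IRR_statement)
    (emb : EMB_statement) (hk : HKEND_statement) : FREE_statement := by
  intro X _ μ h0 ⟨M⟩ w w' hch hint hn
  have key : ∀ u, Ch μ w' u → P247F.Good μ u := by
    intro u hu
    induction hu with
    | refl => exact hk X μ h0.vol h0.bp w' hint
    | tail _ h2 ih =>
      obtain ⟨k, hk'⟩ := h2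
      exact good_mv hk h0.vol h0.bp (fun _ _ _ a b c => transport root nm irr emb h0 M a b c) hk' ih
  exact fin_of_good h0.vol ((Ch.symm hch).hyper hint.1) hn (key w (Ch.symm hch))

end B

end Vale.Agent.P247F.J
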