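import Vale.Agent.P247O.Sta

/-!
# P247, block Y: the two coverings (helper53)
-/

set_option linter.all false

open scoped Manifold ContDiff Topology
open Set Filter

noncomputable section

namespace Vale.Agent.P247Y.J

open Vale.Agent.P247X

namespace CovxH

/-- the product of two cocycles -/
def prod {X : Type} [TopologicalSpace X] {W : Set X} {G H : Type} [AddCommGroup G]
    [AddCommGroup H] (a : Coc W G) (b : Coc W H) : Coc W (G × H) where
  ι := a.ι × b.ι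
  V i := a.V i.1 ∩ b.V i.2
  opn i := (a.opn _).inter (b.opn _)
  sub i := fun x hx => a.sub _ hx.1
  cov x hx := by
    obtain ⟨i, hi⟩ := a.cov x hx
    obtain ⟨j, hj⟩ := b.cov x hx
    exact ⟨(i, j), hi, hj⟩
  c i j x := (a.c i.1 j.1 x, b.c i.2 j.2 x)
  lc i j x hx := by
    filter_upwards [a.lc i.1 j.1 x ⟨hx.1.1, hx.2.1⟩, b.lc i.2 j.2 x ⟨hx.1.2, hx.2.2⟩] with y h1 h2
    rw [h1, h2]
  co i j k x hx := Prod.ext (a.co _ _ _ x ⟨⟨hx.1.1.1, hx.1.2.1⟩, hx.2.1⟩)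
    (b.co _ _ _ x ⟨⟨hx.1.1.2, hx.1.2.2⟩, hx.2.2⟩)

theorem prod_model {X : Type} [TopologicalSpace X] [ChartedSpace P247.SCY.HS.E4 X] {w : Tri X}
    {W : Set X} {G H : Type} [AddCommGroup G] [AddCommGroup H] {a : Coc W G} {b : Coc W H}
    {S : Std w} {g : G} {h : H} (ha : CocModel a S g) (hb : CocModel b S h) :
    CocModel (prod a b) S (g, h) := by
  obtain ⟨ε, h1, h2, h3⟩ := ha
  obtain ⟨ε', h1', h2', h3'⟩ := hb
  refine ⟨fun i z => (ε i.1 z, ε' i.2 z), fun i z hz => ?_, fun i j z hz hz' => ?_,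
    fun i z hz hz' => ?_⟩
  · filter_upwards [h1 i.1 z ⟨hz.1, hz.2.1⟩, h1' i.2 z ⟨hz.1, hz.2.2⟩] with y e1 e2
    rw [e1, e2]
  · exact Prod.ext (h2 _ _ z hz ⟨hz'.1.1, hz'.2.1⟩) (h2' _ _ z hz ⟨hz'.1.2, hz'.2.2⟩)
  · exact Prod.ext (h3 _ z hz hz'.1) (h3' _ z hz hz'.2)

theorem sq_mem_Xo (stdb : STDB_statement) {X : Type} [Cl4 X] (c : Ctx X) (i j : Fin 4) :
    sq (c.St i j) '' B0 (c.St i j).r ⊆ Xo c.St := by
  obtain ⟨-, -, -, -, -, -, h, -⟩ := stdb X c.w (c.St i j)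
  rw [h]
  intro x hx i' j' hx'
  by_cases e : (i, j) = (i', j')
  · obtain ⟨rfl, rfl⟩ := Prod.mk.inj e
    exact hx.2 hx'
  · exact Set.disjoint_left.1 (c.disj i j i' j' e) hx.1 ((stdb X c.w (c.St i' j')).2.2.1 hx')

theorem tocov (toc : TOCOV_statement) (stdb : STDB_statement) {X : Type} [Cl4 X] (c : Ctx X)
    {G : Type} [AddCommGroup G] (b : Coc (Xo c.St) G) (γ : Fin 4 → Fin 4 → G)
    (h : ∀ i j, CocModel b (c.St i j) (γ i j)) :
    ∃ Z : GCov (Xo c.St) G, ∀ i j, Model Z (c.St i j) (γ i j) := by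
  obtain ⟨Z, hZ⟩ := toc X c.w _ G b
  refine ⟨Z, fun i j => hZ _ _ (sq_mem_Xo stdb c i j) ?_ (fun z hz => ?_) (h i j)⟩
  · exact (stdb X c.w (c.St i j)).2.2.2.2.1.continuousOn
  · obtain ⟨-, -, -, -, -, -, -, h8, -⟩ := stdb X c.w (c.St i j)
    have hz' : -z ∈ B0 (c.St i j).r := ⟨by simpa [B2] using hz.1, fun e => hz.2 (by simpa using e)⟩
    exact ((h8 z hz (-z) hz').2 (Or.inr rfl)).symm

theorem half (dv : DIV_statement) (bb : BB) {X : Type} [Cl4 X] (c : Ctx X) (b : Bool)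
    (a : Fin 4 → ZMod 2) (ha : ∑ j, ((a j).val : ℤ) = 2) :
    ∃ k : Coc (Xo c.St) (ZMod 2), ∀ i j, CocModel k (c.St i j) (a (if b then i else j)) := by
  cases b
  · refine dv bb X c (fun i j => a j) (c.K.F₂ - ∑ j, ((a j).val : ℤ) • c.K.D j) ?_
    rw [Finset.sum_comm]
    have h1 : ∀ j, ∑ i, ((a j).val : ℤ) • c.K.d i j =
        ((a j).val : ℤ) • c.K.F₂ - (2 : ℤ) • ((a j).val : ℤ) • c.K.D j := by
      intro j
      rw [← Finset.smul_sum, c.K.hF₂ j, smul_add, smul_comm (2 : ℤ)]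
      abel
    simp only [h1, Finset.sum_sub_distrib, ← Finset.sum_smul, ha, ← Finset.smul_sum, smul_sub]
  · refine dv bb X c (fun i j => a i) (c.K.F₁ - ∑ j, ((a j).val : ℤ) • c.K.C j) ?_
    have h1 : ∀ i, ∑ j, ((a i).val : ℤ) • c.K.d i j =
        ((a i).val : ℤ) • c.K.F₁ - (2 : ℤ) • ((a i).val : ℤ) • c.K.C i := by
      intro i
      rw [← Finset.smul_sum, c.K.hF₁ i, smul_add, smul_comm (2 : ℤ)]
      abel
    simp only [h1, Finset.sum_sub_distrib, ← Finset.sum_smul, ha, ← Finset.smul_sum, smul_sub]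

end CovxH

open CovxH in
theorem covx : COVX_statement := by
  intro dv toc stdb bb X _ c
  refine ⟨?_, fun b => ?_⟩
  · obtain ⟨k, hk⟩ := dv bb X c (fun _ _ => 1) ((2 : ℤ) • c.K.F₁ - ∑ i, c.K.C i) (by
      have h1 : ∀ i, ∑ j, (((1 : ZMod 2).val : ℕ) : ℤ) • c.K.d i j =
          c.K.F₁ - (2 : ℤ) • c.K.C i := by
        intro i
        rw [c.K.hF₁ i, show (((1 : ZMod 2).val : ℕ) : ℤ) = 1 from rfl]
        simp
      simp only [h1, Finset.sum_sub_distrib, ← Finset.smul_sum, smul_sub, Finset.sum_const,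
        Finset.card_univ, Fintype.card_fin]
      congr 1
      rw [smul_smul]
      exact (natCast_zsmul c.K.F₁ 4))
    exact tocov toc stdb c k _ hk
  · let γ : Fin 4 ≃ ZMod 2 × ZMod 2 := (finProdFinEquiv (m := 2) (n := 2)).symm
    obtain ⟨k, hk⟩ := half dv bb c b (fun j => (γ j).1) (by decide)
    obtain ⟨k', hk'⟩ := half dv bb c b (fun j => (γ j).2) (by decide)
    exact ⟨γ, tocov toc stdb c (prod k k') _ fun i j => prod_model (hk i j) (hk' i j)⟩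

end Vale.Agent.P247Y.J
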