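import Vale.Agent.P247Y.Sta
import Vale.Agent.P247O.Spec

/-!
# P247, block Y: from the configuration of spheres to the Kummer presentation; statements
-/

set_option linter.all false

open scoped Manifold ContDiff Topology
open Set MeasureTheory Filter Metric

noncomputable section

namespace Vale.Agent.P247Y.J

open Vale.Agent.P247.SCY
open Vale.Agent.P247.SCY.HS
open Vale.Agent.P247X
open Vale.Agent.P247.H74 (R4 Data e P2 lin JT JH)
open Vale.Agent.P247.H574 (tr)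
open Vale.Agent.P290.H726 (bil)
open Vale.Agent.P290Z.Lat (cs)

/-- the data of the statement `KUM` -/
structure Ctx (X : Type) [Cl4 X] where
  μ : Form X 4
  top : Top0 μ
  M : Marking μ
  K : DK M.G
  w : Tri X
  hw : Hypersymplectic μ w
  rep : M.Rep w K.k
  St : Fin 4 → Fin 4 → Std w
  disj : ∀ i j i' j', (i, j) ≠ (i', j') → Disjoint (St i j).nb (St i' j').nb
  clsd : ∀ i j, IsCls μ (fun φ => ∫ z, pull2 φ (fun ζ => (St i j).p (0, ζ)) z)
    (lc M.c (cs ℝ (K.d i j)))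
  C : Fin 4 → Sph (Jw w)
  D : Fin 4 → Sph (Jw w)
  clsC : ∀ i, IsCls μ (C i).int (lc M.c (cs ℝ (K.C i)))
  clsD : ∀ j, IsCls μ (D j).int (lc M.c (cs ℝ (K.D j)))

/-- the transposed configuration -/
def DKt {n : ℕ} {G : Matrix (Fin n) (Fin n) ℤ} (hs : ∀ i j, G i j = G j i) (K : DK G) : DK G where
  d i j := K.d j i
  C := K.D
  D := K.C
  F₁ := K.F₂
  F₂ := K.F₁
  k := K.k
  dd i j i' j' := by rw [K.dd]; simp only [and_comm]
  CC := K.DD
  DD := K.CC
  CD i j := by rw [P290.H726.bil_symm _ hs]; exact K.CD j i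
  Cd i i' j := K.Dd i j i'
  Dd j i j' := K.Cd j j' i
  hF₁ := K.hF₂
  hF₂ := K.hF₁
  pos := K.pos
  wd i j := K.wd j i
  wC := K.wD
  wD := K.wC
  gen v h0 h1 hd hC hD := K.gen v h0 h1 (fun i j => hd j i) hD hC

/-- the transposed context -/
def Ctx.t {X : Type} [Cl4 X] (c : Ctx X) : Ctx X where
  μ := c.μ
  top := c.top
  M := c.M
  K := DKt c.M.k3.symm c.K
  w := c.w
  hw := c.hw
  rep := c.rep
  St i j := c.St j i
  disj i j i' j' h := c.disj j i j' i' fun h' => h (by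
    rw [Prod.mk.injEq] at h' ⊢; exact ⟨h'.2, h'.1⟩)
  clsd i j := c.clsd j i
  C := c.D
  D := c.C
  clsC := c.clsD
  clsD := c.clsC

/-- integral classes of curves -/
def CLS_statement : Prop := BB → ∀ (X : Type) [Cl4 X] (c : Ctx X) (K : Irr (Jw c.w)),
  ∃ v : Fin c.M.n → ℤ, IsCls c.μ K.T (lc c.M.c (cs ℝ v)) ∧ bil c.M.G (cs ℝ v) (c.K.k 0) = 0 ∧
    bil c.M.G (cs ℝ v) (c.K.k 1) = 0 ∧ 0 < bil c.M.G (cs ℝ v) (c.K.k 2)

/-- the incidences of the spheres (apply it to `c.t` for the spheres `D`) -/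
structure Geom {X : Type} [Cl4 X] (c : Ctx X) : Prop where
  Cd : ∀ i j, ∃ x, (c.C i).set ∩ (c.St i j).set = {x} ∧ TransAt (c.C i).set (c.St i j).set x
  Cd' : ∀ i i' j, i ≠ i' → Disjoint (c.C i).set (c.St i' j).set
  CC : ∀ i i', i ≠ i' → Disjoint (c.C i).set (c.C i').set
  CD : ∀ i j, Disjoint (c.C i).set (c.D j).set

def GEOM_statement : Prop := BB → STDB_statement → ∀ (X : Type) [Cl4 X] (c : Ctx X), Geom c

/-- double coverings branched along half of an even set of spheres -/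
def DIV_statement : Prop := BB → ∀ (X : Type) [Cl4 X] (c : Ctx X) (γ : Fin 4 → Fin 4 → ZMod 2)
  (l : Fin c.M.n → ℤ), (2 : ℤ) • l = ∑ i, ∑ j, ((γ i j).val : ℤ) • c.K.d i j →
  ∃ b : Coc (Xo c.St) (ZMod 2), ∀ i j, CocModel b (c.St i j) (γ i j)

def DIVX_statement : Prop := THOM_statement → COB_statement → STDB_statement → DIV_statement

/-- the two coverings -/
def COV_statement : Prop := BB → ∀ (X : Type) [Cl4 X] (c : Ctx X),
  (∃ Z : GCov (Xo c.St) (ZMod 2), ∀ i j, Model Z (c.St i j) 1) ∧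
  ∀ b : Bool, ∃ (γ : Fin 4 ≃ ZMod 2 × ZMod 2) (Z : GCov (Xo c.St) (ZMod 2 × ZMod 2)),
    ∀ i j, Model Z (c.St i j) (γ (if b then i else j))

def COVX_statement : Prop := DIV_statement → TOCOV_statement → STDB_statement → COV_statement

/-- construction of `Y` -/
def DCX_statement : Prop := STDB_statement → ∀ (X : Type) [Cl4 X] (c : Ctx X)
  (Z : GCov (Xo c.St) (ZMod 2)), (∀ i j, Model Z (c.St i j) 1) → Nonempty (DC c.St)

/-- invariant clopen sets; `Y` is connected -/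
def YCONN_statement : Prop := STDB_statement → ∀ (X : Type) [Cl4 X] (c : Ctx X) (Y : DC c.St),
  ConnectedSpace Y.Y

/-- the preimage of `C i` -/
def Aset {X : Type} [Cl4 X] (c : Ctx X) (Y : DC c.St) (i : Fin 4) : Set Y.Y :=
  {y | (y ∈ Y.Yo ∧ Y.pr y ∈ (c.C i).set) ∨ ∃ j, y = Y.pt i j}

/-- the preimage of `D j` -/
def Bset {X : Type} [Cl4 X] (c : Ctx X) (Y : DC c.St) (j : Fin 4) : Set Y.Y :=
  {y | (y ∈ Y.Yo ∧ Y.pr y ∈ (c.D j).set) ∨ ∃ i, y = Y.pt i j}

/-- The data for one foliation: the class `F`, the special leaves, the covering `Z`. -/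
structure FCtx {X : Type} [Cl4 X] (c : Ctx X) (Y : DC c.St) where
  /-- `false`: the family of the `C i`, `true`: the family of the `D j` -/
  b : Bool
  γ : Fin 4 ≃ ZMod 2 × ZMod 2
  Z : GCov (Xo c.St) (ZMod 2 × ZMod 2)
  model : ∀ i j, Model Z (c.St i j) (γ (if b then i else j))
  A : Fin 4 → Tor Y.P.J
  B : Fin 4 → Tor Y.P.J
  hA : ∀ i, OddTor Y (c.C i) (fun _ => i) id (A i)
  hB : ∀ j, OddTor Y (c.D j) id (fun _ => j) (B j)

section leaves

variable {X : Type} [Cl4 X] {c : Ctx X} {Y : DC c.St}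

/-- the class of the fibres -/
def FCtx.F (f : FCtx c Y) : Fin c.M.n → ℤ := if f.b then c.K.F₂ else c.K.F₁

/-- the special leaves -/
def FCtx.Sp (f : FCtx c Y) (i : Fin 4) : Tor Y.P.J := if f.b then f.B i else f.A i

/-- the spheres below the special leaves -/
def FCtx.Sph (f : FCtx c Y) (i : Fin 4) : Sph (Jw c.w) := if f.b then c.D i else c.C i

/-- generic leaves -/
structure GLeaf (f : FCtx c Y) (T : Tor Y.P.J) : Prop where
  sub : T.set ⊆ Y.Yo
  inj : InjOn Y.pr T.set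
  cls : IsCls c.μ (fun φ => ∫ z in para T.τ, pull2 φ (fun z => Y.pr (T.u z)) z)
    (lc c.M.c (cs ℝ f.F))
  conn : IsPreconnected (f.Z.π ⁻¹' (Y.pr '' T.set))

/-- leaves -/
def Leaf (f : FCtx c Y) (L : Set Y.Y) : Prop :=
  (∃ i, L = (f.Sp i).set) ∨ ∃ T, GLeaf f T ∧ L = T.set

end leaves

/-- everything proved before -/
structure Pre : Prop where
  bb : BB
  fol : FOL_statement
  folb : FOLB_statement
  tang : TANG_statement
  lift : LIFT_statement
  stdb : STDB_statement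
  cls : CLS_statement
  geom : GEOM_statement

/-- projections of tori, images under the involution, constancy of the class in a family -/
def PRT_statement : Prop := Pre → ∀ (X : Type) [Cl4 X] (c : Ctx X) (Y : DC c.St),
  (∀ T : Tor Y.P.J, T.set ⊆ Y.Yo → InjOn Y.pr T.set →
    ∃ K : Tor (Jw c.w), K.τ = T.τ ∧ K.u = fun z => Y.pr (T.u z)) ∧
  (∀ T : Tor Y.P.J, ∃ T' : Tor Y.P.J, T'.τ = T.τ ∧ T'.u = fun z => Y.ι (T.u z)) ∧
  (∀ (K : Tor (Jw c.w)) (u : ℂ → Y.Y), Continuous u → (∀ z, u z ∈ Y.Yo) →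
    (∀ z, Y.pr (u z) = K.u z) → (∀ (m n : ℤ) z, u (z + m + n * K.τ) = u z) →
    ∃ T : Tor Y.P.J, T.τ = K.τ ∧ T.u = u) ∧
  ∀ (s : Set P2) (K : P2 → Tor (Jw c.w)) (Ψ : P2 × P2 → X), IsOpen s → IsPreconnected s →
    ContMDiffOn 𝓘(ℝ, P2 × P2) (𝓡 4) ∞ Ψ (s ×ˢ univ) →
    (∀ y ∈ s, ∀ p : P2, (K y).u (p.1 + p.2 * (K y).τ) = Ψ (y, p)) →
    ∀ y ∈ s, ∀ y' ∈ s, ∀ α, IsCls c.μ (K y).int α → IsCls c.μ (K y').int α

/-- the leaves near a special leaf -/
def NEAR_statement : Prop := Pre → PRT_statement → ∀ (X : Type) [Cl4 X] (c : Ctx X) (Y : DC c.St)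
  (f : FCtx c Y) (i : Fin 4), ∃ F : Fol Y.P.J, F.leaf 0 = (f.Sp i).set ∧
    ∀ y ∈ ball (0 : P2) F.ε, Leaf f (F.leaf y)

/-- the leaves near a generic leaf -/
def OPENG_statement : Prop := Pre → PRT_statement → ∀ (X : Type) [Cl4 X] (c : Ctx X) (Y : DC c.St)
  (f : FCtx c Y) (T : Tor Y.P.J), GLeaf f T → ∃ F : Fol Y.P.J, F.leaf 0 = T.set ∧
    ∀ y ∈ ball (0 : P2) F.ε, Leaf f (F.leaf y)

/-- limits of tori of the class `F`: the limit through a point off the spheres is one irreducible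
curve of square zero, disjoint from the spheres -/
def LIMK_statement : Prop := Pre → ∀ (X : Type) [Cl4 X] (c : Ctx X) (ι : Type) (𝒰 : Ultrafilter ι)
  (K : ι → Tor (Jw c.w)), (∀ n, IsCls c.μ (K n).int (lc c.M.c (cs ℝ c.K.F₁))) →
  ∀ x ∈ Xo c.St, (∀ i, x ∉ (c.C i).set) →
  (∀ U ∈ 𝓝 x, ∀ᶠ n in (𝒰 : Filter ι), (U ∩ (K n).set).Nonempty) →
  ∃ L : Set X, x ∈ L ∧ L ⊆ Xo c.St ∧ IsCompact L ∧ ((∃ S : Tor (Jw c.w), S.set = L) ∨ Rat L) ∧
    ∀ O, IsOpen O → L ⊆ O → ∀ᶠ n in (𝒰 : Filter ι), (K n).set ⊆ O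

/-- the union of the generic leaves is closed off the spheres -/
def CLOSED_statement : Prop := Pre → PRT_statement → LIMK_statement → RATX_statement →
  ∀ (X : Type) [Cl4 X] (c : Ctx X) (Y : DC c.St) (f : FCtx c Y), ∀ y ∈ Y.Yo,
  (∀ i, y ∉ (f.Sp i).set) → y ∈ closure {y' | ∃ T, GLeaf f T ∧ y' ∈ T.set} →
  ∃ T, GLeaf f T ∧ y ∈ T.set

/-- the global foliation -/
def FOLI_statement : Prop := Pre → PRT_statement → YCONN_statement → NEAR_statement →
  OPENG_statement → CLOSED_statement → ∀ (X : Type) [Cl4 X] (c : Ctx X) (Y : DC c.St)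
  (f : FCtx c Y), Foli Y.P.J (Leaf f) ∧ ∀ L, Leaf f L → Leaf f (Y.ι '' L)

/-- leaves of the two families meet once -/
def MEET_statement : Prop := Pre → PRT_statement → YCONN_statement →
  ∀ (X : Type) [Cl4 X] (c : Ctx X) (Y : DC c.St) (f g : FCtx c Y), f.b = false → g.b = true →
  Foli Y.P.J (Leaf f) → Foli Y.P.J (Leaf g) → (∀ L, Leaf g L → Leaf g (Y.ι '' L)) →
  ∀ L L', Leaf f L → Leaf g L' → OneT Y.P.J L L'

/-- the Kummer presentation from the product structure -/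
def KPFIN_statement : Prop := Pre → PROD_statement → ∀ (X : Type) [Cl4 X] (c : Ctx X)
  (Y : DC c.St) (f g : FCtx c Y), f.b = false → g.b = true →
  Foli Y.P.J (Leaf f) → Foli Y.P.J (Leaf g) → (∀ L, Leaf f L → Leaf f (Y.ι '' L)) →
  (∀ L, Leaf g L → Leaf g (Y.ι '' L)) → (∀ L L', Leaf f L → Leaf g L' → OneT Y.P.J L L') →
  Nonempty (KP c.w)

end Vale.Agent.P247Y.J
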