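import Vale.Agent.P247Y.Cv
import Vale.Agent.P247O.Sta

/-!
# P247, block Y: classes of curves; rows CLS and GEOM
-/

set_option linter.all false

open scoped Manifold ContDiff Topology
open Set MeasureTheory Filter Metric

noncomputable section

namespace Vale.Agent.P247Y.J

open Vale.Agent.P247.SCY
open Vale.Agent.P247.SCY.HS
open Vale.Agent.P247X
open Vale.Agent.P290.H726
open Vale.Agent.P290Z.Lat (cs)

variable {X : Type} [Cl4 X]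

variable (c : Ctx X)

/-- the form of an integral class -/
abbrev Ctx.cl (v : Fin c.M.n → ℤ) : Form X 2 := lc c.M.c (cs ℝ v)

/-- the intersection number -/
abbrev Ctx.ip (u v : Fin c.M.n → ℤ) : ℤ := bil c.M.G u v

theorem Ctx.hμ : Volume c.μ := c.top.vol

theorem Ctx.cl_sc (v : Fin c.M.n → ℤ) : SC (c.cl v) := sc_lc c.M.sc _

theorem Ctx.ip_comm (u v : Fin c.M.n → ℤ) : c.ip u v = c.ip v u := bil_symm _ c.M.k3.symm u v

theorem Ctx.pair_cl (u v : Fin c.M.n → ℤ) : pair c.μ (c.cl u) (c.cl v) = (c.ip u v : ℝ) := by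
  rw [c.M.pair_lc c.hμ c.hw, bil_cs]

theorem IsCls.ip {T : Form X 2 → ℝ} {v : Fin c.M.n → ℤ} (h : IsCls c.μ T (c.cl v))
    (u : Fin c.M.n → ℤ) : T (c.cl u) = (c.ip v u : ℝ) := by
  rw [h.2 _ (c.cl_sc u), c.pair_cl]

theorem cls : CLS_statement := by
  intro bb X _ c K
  obtain ⟨hP, hpos, -, hint, -⟩ := bb.irr X c.μ c.hμ c.w c.hw K
  have h1 : ∀ i, ∃ n : ℤ, K.T (c.M.c i) = n := by
    intro i
    obtain ⟨L, hL⟩ := c.M.int (Pi.single i 1)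
    obtain ⟨n, hn⟩ := hint L
    refine ⟨n, ?_⟩
    rw [← hn, hL, lin_lc hP.toLinC c.M.sc, Finset.sum_eq_single i]
    · simp [cs]
    · intro j _ hj
      simp [cs, hj]
    · simp
  choose n hn using h1
  have hG : c.M.G * c.M.G⁻¹ = 1 := Matrix.mul_nonsing_inv _ c.M.k3.unit
  let v : Fin c.M.n → ℤ := c.M.G⁻¹.mulVec n
  have hv : c.M.G.mulVec v = n := by rw [Matrix.mulVec_mulVec, hG, Matrix.one_mulVec]
  have h2 : ∀ u : Fin c.M.n → ℝ, K.T (lc c.M.c u) = bil c.M.G (cs ℝ v) u := by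
    intro u
    rw [lin_lc hP.toLinC c.M.sc, bil_symm _ c.M.k3.symm, bil]
    refine Finset.sum_congr rfl fun i _ => ?_
    rw [hn, ← hv]
    simp only [Matrix.mulVec, dotProduct, cs, Int.cast_sum, Int.cast_mul, Finset.mul_sum]
    exact Finset.sum_congr rfl fun j _ => by ring
  have h3 : IsCls c.μ K.T (c.cl v) := by
    refine ⟨c.cl_sc v, fun φ hφ => ?_⟩
    obtain ⟨u, hu⟩ := c.M.span φ hφ
    rw [PCur.coh hP hφ (sc_lc c.M.sc u) hu, h2, P247.SCY.pair_comm,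
      hu.pair c.hμ c.hw hφ.1 (sc_lc c.M.sc u).1 (c.cl_sc v), P247.SCY.pair_comm,
      c.M.pair_lc c.hμ c.hw]
  have h4 : ∀ i, K.T (c.w i) = bil c.M.G (cs ℝ v) (c.K.k i) := fun i => by
    rw [h3.2 _ (hyp_sc c.hw i), c.M.pair_rep c.hμ c.hw c.rep]
  exact ⟨v, h3, (h4 0).symm.trans (PCur.w_zero c.hw hP 0), (h4 1).symm.trans (PCur.w_zero c.hw hP 1),
    h4 2 ▸ hpos⟩

/-! ## Embedded curves with a class -/

/-- `A` is an irreducible curve of class `v` -/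
def Cu (A : Set X) (v : Fin c.M.n → ℤ) : Prop :=
  ∃ K : Irr (Jw c.w), K.K = A ∧ IsCls c.μ K.T (c.cl v)

/-- `A` is an embedded curve of class `v` -/
def Cv (A : Set X) (v : Fin c.M.n → ℤ) : Prop := Cu c A v ∧ ∀ x ∈ A, RegPt (Jw c.w) A x

variable {c}

theorem Cu.pos (bb : BB) {A A' : Set X} {v v' : Fin c.M.n → ℤ} (h : Cu c A v) (h' : Cu c A' v')
    (hne : A ≠ A') : (A ∩ A').Finite ∧ ((A ∩ A').ncard : ℤ) ≤ c.ip v v' ∧
      (((A ∩ A').ncard : ℤ) = c.ip v v' → ∀ x ∈ A ∩ A', TransAt A A' x) ∧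
      ((∀ x ∈ A ∩ A', RegPt (Jw c.w) A x ∧ RegPt (Jw c.w) A' x ∧ TransAt A A' x) →
        ((A ∩ A').ncard : ℤ) = c.ip v v') := by
  obtain ⟨K, rfl, hK⟩ := h
  obtain ⟨K', rfl, hK'⟩ := h'
  obtain ⟨h1, h2, h3, h4⟩ := bb.pos X c.μ c.hμ c.w c.hw K K' hne _ hK'
  rw [IsCls.ip c hK] at h2 h3 h4
  exact ⟨h1, by exact_mod_cast h2, fun e => h3 (by exact_mod_cast e),
    fun e => by exact_mod_cast h4 e⟩

theorem Cu.uniq (bb : BB) {A : Set X} {v v' : Fin c.M.n → ℤ} (h : Cu c A v) (h' : Cu c A v')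
    (u : Fin c.M.n → ℤ) : c.ip v u = c.ip v' u := by
  obtain ⟨K, rfl, hK⟩ := h
  obtain ⟨K', e, hK'⟩ := h'
  have := (bb.irr X c.μ c.hμ c.w c.hw K).2.2.2.2 K' e _ (c.cl_sc u).cont
  rw [IsCls.ip c hK, IsCls.ip c hK'] at this
  exact_mod_cast this.symm

theorem Cu.ne (bb : BB) {A A' : Set X} {v v' : Fin c.M.n → ℤ} (h : Cu c A v) (h' : Cu c A' v')
    (u : Fin c.M.n → ℤ) (hu : c.ip v u ≠ c.ip v' u) : A ≠ A' := by
  rintro rfl
  exact hu (h.uniq bb h' u)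

theorem Cu.nonneg (bb : BB) {A A' : Set X} {v v' : Fin c.M.n → ℤ} (h : Cu c A v) (h' : Cu c A' v')
    (hne : A ≠ A') : 0 ≤ c.ip v v' :=
  le_trans (Nat.cast_nonneg _) (h.pos bb h' hne).2.1

theorem Cu.disj (bb : BB) {A A' : Set X} {v v' : Fin c.M.n → ℤ} (h : Cu c A v) (h' : Cu c A' v')
    (hne : A ≠ A') (h0 : c.ip v v' ≤ 0) : Disjoint A A' := by
  obtain ⟨h1, h2, -⟩ := h.pos bb h' hne
  rw [disjoint_iff_inter_eq_empty, ← ncard_eq_zero h1]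
  omega

theorem Cu.nonempty {A : Set X} {v : Fin c.M.n → ℤ} (h : Cu c A v) : A.Nonempty := by
  obtain ⟨K, rfl, -⟩ := h
  exact K.ne

theorem Cu.cpt {A : Set X} {v : Fin c.M.n → ℤ} (h : Cu c A v) : IsCompact A := by
  obtain ⟨K, rfl, -⟩ := h
  exact K.cpt

theorem Cu.zero (bb : BB) {A A' : Set X} {v v' : Fin c.M.n → ℤ} (h : Cu c A v) (h' : Cu c A' v')
    (hd : Disjoint A A') : c.ip v v' = 0 := by
  have hne : A ≠ A' := by
    rintro rfl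
    exact h.nonempty.ne_empty (disjoint_self.1 hd)
  have h1 := (h.pos bb h' hne).2.2.2
  rw [disjoint_iff_inter_eq_empty.1 hd] at h1
  simpa using (h1 fun x hx => hx.elim).symm

/-- intersection number one: one transversal point -/
theorem Cv.one (bb : BB) {A A' : Set X} {v v' : Fin c.M.n → ℤ} (h : Cv c A v) (h' : Cv c A' v')
    (hne : A ≠ A') (h1 : c.ip v v' = 1) : ∃ x, A ∩ A' = {x} ∧ TransAt A A' x := by
  obtain ⟨k1, k2, k3, k4⟩ := h.1.pos bb h'.1 hne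
  have k5 : (A ∩ A').ncard ≠ 0 := fun e => by
    have k6 := k4 (by rw [(ncard_eq_zero k1).1 e]; exact fun x hx => hx.elim)
    omega
  have k7 : (A ∩ A').ncard = 1 := by omega
  obtain ⟨x, hx⟩ := ncard_eq_one.1 k7
  exact ⟨x, hx, k3 (by omega) x (by rw [hx]; rfl)⟩

theorem Cv.count (bb : BB) {A A' : Set X} {v v' : Fin c.M.n → ℤ} (h : Cv c A v) (h' : Cv c A' v')
    (hne : A ≠ A') (ht : ∀ x ∈ A ∩ A', TransAt A A' x) : ((A ∩ A').ncard : ℤ) = c.ip v v' :=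
  (h.1.pos bb h'.1 hne).2.2.2 fun x hx => ⟨h.2 x hx.1, h'.2 x hx.2, ht x hx⟩

theorem cv_sph (bb : BB) (S : Sph (Jw c.w)) {v : Fin c.M.n → ℤ} (h : IsCls c.μ S.int (c.cl v)) :
    Cv c S.set v := by
  obtain ⟨K, k1, k2, k3⟩ := (bb.emb X c.μ c.hμ c.w c.hw).1 S
  exact ⟨⟨K, k1, h.1, fun φ hφ => (k3 φ hφ.cont).trans (h.2 φ hφ)⟩, k1 ▸ k2⟩

theorem cv_tor (bb : BB) (S : Tor (Jw c.w)) {v : Fin c.M.n → ℤ} (h : IsCls c.μ S.int (c.cl v)) :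
    Cv c S.set v := by
  obtain ⟨K, k1, k2, k3⟩ := (bb.emb X c.μ c.hμ c.w c.hw).2 S
  exact ⟨⟨K, k1, h.1, fun φ hφ => (k3 φ hφ.cont).trans (h.2 φ hφ)⟩, k1 ▸ k2⟩

/-- the class of a torus -/
theorem tor_cls (bb : BB) (S : Tor (Jw c.w)) : ∃ v : Fin c.M.n → ℤ, IsCls c.μ S.int (c.cl v) ∧
    bil c.M.G (cs ℝ v) (c.K.k 0) = 0 ∧ bil c.M.G (cs ℝ v) (c.K.k 1) = 0 := by
  obtain ⟨K, k1, k2, k3⟩ := (bb.emb X c.μ c.hμ c.w c.hw).2 S
  obtain ⟨v, h1, h2, h3, -⟩ := cls bb X c K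
  exact ⟨v, ⟨h1.1, fun φ hφ => (k3 φ hφ.cont).symm.trans (h1.2 φ hφ)⟩, h2, h3⟩

/-- the class of a torus depends on the image only -/
theorem tor_cls_congr (bb : BB) {S S' : Tor (Jw c.w)} (e : S'.set = S.set) {α : Form X 2}
    (h : IsCls c.μ S.int α) : IsCls c.μ S'.int α := by
  obtain ⟨K, k1, -, k3⟩ := (bb.emb X c.μ c.hμ c.w c.hw).2 S
  obtain ⟨K', k1', -, k3'⟩ := (bb.emb X c.μ c.hμ c.w c.hw).2 S'
  refine ⟨h.1, fun φ hφ => ?_⟩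
  rw [← k3' φ hφ.cont, (bb.irr X c.μ c.hμ c.w c.hw K).2.2.2.2 K' (by rw [k1, k1', e]) φ hφ.cont,
    k3 φ hφ.cont, h.2 φ hφ]

variable (c)

theorem cv_C (bb : BB) (i : Fin 4) : Cv c (c.C i).set (c.K.C i) := cv_sph bb _ (c.clsC i)

theorem cv_D (bb : BB) (i : Fin 4) : Cv c (c.D i).set (c.K.D i) := cv_sph bb _ (c.clsD i)

theorem cv_d (bb : BB) (hS : STDB_statement) (i j : Fin 4) : Cv c (c.St i j).set (c.K.d i j) := by
  obtain ⟨δ, h1, h2⟩ := (hS X c.w (c.St i j)).2.2.2.1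
  have e : δ.u = fun ζ => (c.St i j).p (0, ζ) := funext h1
  have e' : δ.set = (c.St i j).set := by rw [Sph.set, Std.set, h2, e]
  rw [← e']
  refine cv_sph bb δ ?_
  have := c.clsd i j
  rw [← e] at this
  exact this

/-! ## The intersection numbers -/

theorem bil_sum_left {n : ℕ} {G : Matrix (Fin n) (Fin n) ℤ} {R : Type} [CommRing R] {ι : Type}
    (s : Finset ι) (x : ι → Fin n → R) (y : Fin n → R) :
    bil G (∑ i ∈ s, x i) y = ∑ i ∈ s, bil G (x i) y := by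
  classical
  induction s using Finset.induction_on with
  | empty => simp [bil_zero_left]
  | insert a s ha ih => rw [Finset.sum_insert ha, Finset.sum_insert ha, bil_add_left, ih]

theorem Ctx.F1_ip (i : Fin 4) (v : Fin c.M.n → ℤ) :
    c.ip c.K.F₁ v = 2 * c.ip (c.K.C i) v + ∑ j, c.ip (c.K.d i j) v := by
  rw [c.K.hF₁ i, Ctx.ip, bil_add_left, bil_smul_left, bil_sum_left]

theorem Ctx.F2_ip (j : Fin 4) (v : Fin c.M.n → ℤ) :
    c.ip c.K.F₂ v = 2 * c.ip (c.K.D j) v + ∑ i, c.ip (c.K.d i j) v := c.t.F1_ip j v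

theorem Ctx.F1_d (i j : Fin 4) : c.ip c.K.F₁ (c.K.d i j) = 0 := by
  rw [c.F1_ip i]
  simp [Ctx.ip, c.K.Cd, c.K.dd]

theorem Ctx.F1_C (i : Fin 4) : c.ip c.K.F₁ (c.K.C i) = 0 := by
  rw [c.F1_ip i]
  simp only [c.ip_comm (c.K.d _ _)]
  simp [Ctx.ip, c.K.Cd, c.K.CC]

theorem Ctx.F1_D (j : Fin 4) : c.ip c.K.F₁ (c.K.D j) = 1 := by
  rw [c.F1_ip 0]
  simp only [c.ip_comm (c.K.d _ _)]
  simp [Ctx.ip, c.K.Dd, c.K.CD]

theorem Ctx.F1_F1 : c.ip c.K.F₁ c.K.F₁ = 0 := by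
  rw [c.F1_ip 0]
  simp only [c.ip_comm _ c.K.F₁, c.F1_d, c.F1_C]
  simp

theorem Ctx.F2_d (i j : Fin 4) : c.ip c.K.F₂ (c.K.d i j) = 0 := c.t.F1_d j i
theorem Ctx.F2_D (j : Fin 4) : c.ip c.K.F₂ (c.K.D j) = 0 := c.t.F1_C j
theorem Ctx.F2_C (i : Fin 4) : c.ip c.K.F₂ (c.K.C i) = 1 := c.t.F1_D i
theorem Ctx.F2_F2 : c.ip c.K.F₂ c.K.F₂ = 0 := c.t.F1_F1

theorem Ctx.F1_F2 : c.ip c.K.F₁ c.K.F₂ = 2 := by
  rw [c.F1_ip 0]
  simp only [c.ip_comm _ c.K.F₂, c.F2_d, c.F2_C]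
  simp

theorem cs_add {n : ℕ} (u v : Fin n → ℤ) : cs ℝ (u + v) = cs ℝ u + cs ℝ v := by
  funext i
  simp [cs]

theorem cs_smul {n : ℕ} (a : ℤ) (v : Fin n → ℤ) : cs ℝ (a • v) = (a : ℝ) • cs ℝ v := by
  funext i
  simp [cs]

theorem cs_sum {n : ℕ} {ι : Type} (s : Finset ι) (v : ι → Fin n → ℤ) :
    cs ℝ (∑ i ∈ s, v i) = ∑ i ∈ s, cs ℝ (v i) := by
  funext i
  simp [cs]

theorem Ctx.F1_k : bil c.M.G (cs ℝ c.K.F₁) (c.K.k 0) = 0 ∧
    bil c.M.G (cs ℝ c.K.F₁) (c.K.k 1) = 0 := by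
  rw [c.K.hF₁ 0, cs_add, cs_smul, cs_sum]
  simp only [bil_add_left, bil_smul_left, bil_sum_left, (c.K.wC 0).2.1, (c.K.wC 0).2.2.1,
    (c.K.wd 0 _).2.1, (c.K.wd 0 _).2.2.1]
  simp

/-- a class orthogonal to the spheres `d` and `C` is a multiple of `F₁` -/
theorem Ctx.eq_F1 {v : Fin c.M.n → ℤ} (h0 : bil c.M.G (cs ℝ v) (c.K.k 0) = 0)
    (h1 : bil c.M.G (cs ℝ v) (c.K.k 1) = 0) (hd : ∀ i j, c.ip v (c.K.d i j) = 0)
    (hC : ∀ i, c.ip v (c.K.C i) = 0) (j : Fin 4) : v = c.ip v (c.K.D j) • c.K.F₁ := by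
  have hD : ∀ j', c.ip v (c.K.D j') = c.ip v (c.K.D j) := by
    intro j'
    have k1 := c.F2_ip j v
    have k2 := c.F2_ip j' v
    simp only [c.ip_comm _ v, hd] at k1 k2
    simp at k1 k2
    omega
  have key := c.K.gen (v + (-c.ip v (c.K.D j)) • c.K.F₁) ?_ ?_ ?_ ?_ ?_
  · rw [neg_smul] at key
    exact add_neg_eq_zero.1 key
  · rw [cs_add, cs_smul, bil_add_left, bil_smul_left, h0, c.F1_k.1]
    simp
  · rw [cs_add, cs_smul, bil_add_left, bil_smul_left, h1, c.F1_k.2]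
    simp
  · intro a b
    rw [bil_add_left, bil_smul_left]
    have := hd a b
    have := c.F1_d a b
    simp_all [Ctx.ip]
  · intro a
    rw [bil_add_left, bil_smul_left]
    have := hC a
    have := c.F1_C a
    simp_all [Ctx.ip]
  · intro a
    rw [bil_add_left, bil_smul_left]
    have k1 := hD a
    have k2 := c.F1_D a
    simp only [Ctx.ip] at k1 k2 ⊢
    rw [k1, k2]
    ring

theorem geom : GEOM_statement := by
  intro bb hS X _ c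
  have hC := cv_C c bb
  have hD := cv_D c bb
  have hd := cv_d c bb hS
  refine ⟨fun i j => (hC i).one bb (hd i j) ((hC i).1.ne bb (hd i j).1 (c.K.d i j) ?_) ?_,
    fun i i' j h => (hC i).1.disj bb (hd i' j).1 ((hC i).1.ne bb (hd i' j).1 (c.K.d i' j) ?_) ?_,
    fun i i' h => (hC i).1.disj bb (hC i').1 ((hC i).1.ne bb (hC i').1 (c.K.C i) ?_) ?_,
    fun i j => (hC i).1.disj bb (hD j).1 ((hC i).1.ne bb (hD j).1 (c.K.D j) ?_) ?_⟩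
  · simp [Ctx.ip, c.K.Cd, c.K.dd]
  · simp [Ctx.ip, c.K.Cd]
  · simp [Ctx.ip, c.K.Cd, c.K.dd, h]
  · simp [Ctx.ip, c.K.Cd, h]
  · simp [Ctx.ip, c.K.CC, h.symm]
  · simp [Ctx.ip, c.K.CC, h]
  · simp [Ctx.ip, c.K.CD, c.K.DD]
  · simp [Ctx.ip, c.K.CD]

end Vale.Agent.P247Y.J
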