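import Vale.Agent.P247Y.Divx1
import Vale.Agent.P247O.Cv
import Vale.Agent.P247M.LBOps

/-!
# P247, block Y: row DIVX, double coverings branched along an even set of spheres
-/

set_option linter.all false

open scoped Manifold ContDiff Topology
open Set MeasureTheory Filter Metric Function

noncomputable section

namespace Vale.Agent.P247Y.J

open Vale.Agent.P247.SCY
open Vale.Agent.P247.SCY.HS
open Vale.Agent.P247X
open Vale.Agent.P290Z.Lat (cs)

open Vale.Agent.P247Y.DivH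

namespace DivH

variable {X : Type} [Cl4 X]

theorem tensor_U (L L' : LB X) (i : Fin L.n) (j : Fin L'.n) :
    (L.tensor L').U (finProdFinEquiv (i, j)) = L.U i ∩ L'.U j := by
  show L.U (finProdFinEquiv.symm (finProdFinEquiv (i, j))).1 ∩
    L'.U (finProdFinEquiv.symm (finProdFinEquiv (i, j))).2 = _
  rw [Equiv.symm_apply_apply]

theorem tensor_g (L L' : LB X) (i i' : Fin L.n) (j j' : Fin L'.n) (x : X) :
    (L.tensor L').g (finProdFinEquiv (i, j)) (finProdFinEquiv (i', j')) x =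
      L.g i i' x * L'.g j j' x := by
  show L.g (finProdFinEquiv.symm (finProdFinEquiv (i, j))).1
    (finProdFinEquiv.symm (finProdFinEquiv (i', j'))).1 x *
    L'.g (finProdFinEquiv.symm (finProdFinEquiv (i, j))).2
    (finProdFinEquiv.symm (finProdFinEquiv (i', j'))).2 x = _
  rw [Equiv.symm_apply_apply, Equiv.symm_apply_apply]

theorem g_self (L : LB X) {a : Fin L.n} {x : X} (h : x ∈ L.U a) : L.g a a x = 1 :=
  mul_left_cancel₀ (norm_ne_zero_iff.1 (by rw [L.g_norm a a x ⟨h, h⟩]; exact one_ne_zero))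
    ((L.g_co a a a x ⟨⟨h, h⟩, h⟩).trans (mul_one _).symm)

theorem g_conj (L : LB X) {a b : Fin L.n} {x : X} (h : x ∈ L.U a) (h' : x ∈ L.U b) :
    (starRingEnd ℂ) (L.g a b x) = L.g b a x := by
  have h1 := P247M.conj_mul_self (L.g_norm a b x ⟨h, h'⟩)
  have h2 := (L.g_co a b a x ⟨⟨h, h'⟩, h⟩).trans (g_self L h)
  linear_combination L.g b a x * h1 - (starRingEnd ℂ) (L.g a b x) * h2

/-- an isomorphism of `Θ` with `L ⊗ L` -/
structure Iso (L Θ : LB X) (σ : Fin L.n → Fin Θ.n → X → ℂ) : Prop where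
  cont : ∀ a b, ContinuousOn (σ a b) (L.U a ∩ Θ.U b)
  ne : ∀ a b, ∀ x ∈ L.U a, x ∈ Θ.U b → σ a b x ≠ 0
  rel : ∀ a b a' b', ∀ x ∈ L.U a, x ∈ Θ.U b → x ∈ L.U a' → x ∈ Θ.U b' →
    σ a b x = L.g a a' x ^ 2 * Θ.g b' b x * σ a' b' x

theorem exists_iso {L Θ : LB X} (h : ((L.tensor L).tensor Θ.dual).Triv) : ∃ σ, Iso L Θ σ := by
  obtain ⟨s, h1, h2, h3⟩ := h
  let I : Fin L.n → Fin Θ.n → Fin ((L.tensor L).tensor Θ.dual).n := fun a b =>
    finProdFinEquiv (finProdFinEquiv (a, a), b)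
  have hU : ∀ a b, ((L.tensor L).tensor Θ.dual).U (I a b) = L.U a ∩ Θ.U b := fun a b => by
    refine (tensor_U (L.tensor L) Θ.dual _ b).trans ?_
    erw [tensor_U L L a a, inter_self]
    rfl
  refine ⟨fun a b => s (I a b), fun a b => hU a b ▸ (h1 _).continuousOn,
    fun a b x k k' => norm_ne_zero_iff.1 (by rw [h2 _ x (hU a b ▸ ⟨k, k'⟩)]; exact one_ne_zero),
    fun a b a' b' x k1 k2 k3 k4 => ?_⟩
  rw [h3 (I a b) (I a' b') x ⟨hU a b ▸ ⟨k1, k2⟩, hU a' b' ▸ ⟨k3, k4⟩⟩, ← g_conj Θ k2 k4, pow_two,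
    ← tensor_g L L a a' a a']
  exact congrArg (· * s (I a' b') x) (tensor_g (L.tensor L) Θ.dual _ _ b b' x)

/-- the section of `L ⊗ L` given by a trivialisation of `Θ` -/
def Iso.rd {L Θ : LB X} {σ : Fin L.n → Fin Θ.n → X → ℂ} (h : Iso L Θ σ) (b : Fin Θ.n) {W : Set X}
    (hW : IsOpen W) (hb : W ⊆ Θ.U b) : RD W (Fin L.n) where
  U a := L.U a ∩ W
  g := L.g
  s a := σ a b
  opn a := (L.opn a).inter hW
  sub _ := inter_subset_right
  cov x hx := (L.cov x).imp fun _ k => ⟨k, hx⟩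
  g_cont a a' := (L.g_smooth a a').continuousOn.mono
    (inter_subset_inter inter_subset_left inter_subset_left)
  g_co a a' a'' x k k' k'' := L.g_co a a' a'' x ⟨⟨k.1, k'.1⟩, k''.1⟩
  s_cont a := (h.cont a b).mono (inter_subset_inter_right _ hb)
  s_ne a x k := h.ne a b x k.1 (hb k.2)
  rel a a' x k k' := by
    rw [h.rel a b a' b x k.1 (hb k.2) k'.1 (hb k.2), g_self Θ (hb k.2), mul_one]

theorem pair_c (c : Ctx X) (v : Fin c.M.n → ℝ) (j : Fin c.M.n) :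
    pair c.μ (lc c.M.c v) (c.M.c j) = ∑ i, v i * c.M.G i j := by
  rw [pair_lc_left c.hμ c.hw c.M.sc v (c.M.sc j).1]
  simp only [c.M.gram]

theorem exact_of (c : Ctx X) {α : Form X 2} (hα : SC α) (h : ∀ j, pair c.μ α (c.M.c j) = 0) :
    Exact α := by
  obtain ⟨v, hv⟩ := c.M.span α hα
  have h1 : Matrix.vecMul v ((Int.castRingHom ℝ).mapMatrix c.M.G) = 0 := funext fun j => by
    have := h j
    rw [hv.pair c.hμ c.hw hα.1 (sc_lc c.M.sc v).1 (c.M.sc j), pair_c] at this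
    exact this
  have h2 := Matrix.eq_zero_of_vecMul_eq_zero (by
    rw [← RingHom.map_det]; exact (c.M.k3.unit.map _).ne_zero) h1
  simpa [h2, Coh, lc] using hv

end DivH

open DivH in
theorem divx : DIVX_statement := by
  intro thom cob stdb bb X _ c γ l hl
  classical
  let A := {p : Fin 4 × Fin 4 // γ p.1 p.2 = 1}
  let q : Fin (Fintype.card A) ≃ A := (Fintype.equivFin A).symm
  obtain ⟨Θ, ⟨T⟩, hΘ⟩ := thom X c.μ c.hμ c.w c.hw _ (fun k => c.St (q k).1.1 (q k).1.2)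
    fun a b hab => c.disj _ _ _ _ fun k => hab (q.injective (Subtype.ext k))
  obtain ⟨L, hL⟩ := c.M.int l
  obtain ⟨σ, hσ⟩ : ∃ σ, Iso L Θ σ := by
    refine exists_iso (bb.flat X c.μ c.top c.w c.hw _ (exact_of c (LB.F_sc _) fun j => ?_))
    have hj := c.M.sc j
    rw [P247M.tensor_F, P247M.tensor_F, P247M.dual_F,
      pair_add c.hμ c.hw (L.F_sc.add L.F_sc).1 (Θ.F_sc.smul _).1 hj.1,
      pair_add c.hμ c.hw L.F_sc.1 L.F_sc.1 hj.1, pair_smul_left, hΘ _ hj, hL, pair_c]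
    have h1 : ∀ p : Fin 4 × Fin 4, ∫ z, pull2 (c.M.c j) (fun ζ => (c.St p.1 p.2).p (0, ζ)) z =
        ∑ i, (c.K.d p.1 p.2 i : ℝ) * c.M.G i j := fun p =>
      ((c.clsd p.1 p.2).2 _ hj).trans (pair_c c _ j)
    simp only [h1]
    rw [q.sum_comp fun a => ∑ i, (c.K.d a.1.1 a.1.2 i : ℝ) * c.M.G i j,
      ← Finset.sum_subtype (Finset.univ.filter fun p : Fin 4 × Fin 4 => γ p.1 p.2 = 1) (by simp)
        fun p => ∑ i, (c.K.d p.1 p.2 i : ℝ) * c.M.G i j, Finset.sum_filter]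
    have h2 : ∀ p : Fin 4 × Fin 4, (if γ p.1 p.2 = 1 then ∑ i, (c.K.d p.1 p.2 i : ℝ) * c.M.G i j
        else 0) = ∑ i, (((γ p.1 p.2).val : ℝ) * c.K.d p.1 p.2 i) * c.M.G i j := fun p => by
      rcases z2 (γ p.1 p.2) with k | k
      · rw [k, if_neg (by decide)]
        simp
      · rw [k, if_pos rfl, ZMod.val_one]
        simp
    have h3 : ∀ i, ∑ p : Fin 4 × Fin 4, ((γ p.1 p.2).val : ℝ) * c.K.d p.1 p.2 i =
        2 * l i := fun i => by
      have := congrArg (fun v : Fin c.M.n → ℤ => (v i : ℝ)) hl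
      simp only [Finset.sum_apply, Pi.smul_apply, smul_eq_mul] at this
      rw [Fintype.sum_prod_type]
      exact_mod_cast this.symm
    simp only [h2]
    rw [Finset.sum_comm]
    simp only [← Finset.sum_mul, h3]
    simp only [cs, mul_assoc, ← Finset.mul_sum]
    ring
  have hXo : IsOpen (Xo c.St) := by
    have : Xo c.St = ⋂ p : Fin 4 × Fin 4, (c.St p.1 p.2).setᶜ := by
      ext x
      simp [Xo]
    rw [this]
    exact isOpen_iInter_of_finite fun p => (stdb X c.w _).2.1.isClosed.isOpen_compl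
  have hout : Xo c.St ⊆ Θ.U T.out := fun x hx => by
    rw [T.U_out]
    exact fun a => hx _ _
  refine ⟨(hσ.rd T.out hXo hout).coc, fun i j => ?_⟩
  obtain ⟨-, -, -, -, s5, -, s7, -⟩ := stdb X c.w (c.St i j)
  have hnb : ∀ x ∈ (c.St i j).nb, ∀ i' j', (i, j) ≠ (i', j') → x ∉ (c.St i' j').set :=
    fun x hx i' j' k k' => disjoint_left.1 (c.disj _ _ _ _ k) hx ((stdb X c.w _).2.2.1 k')
  have key : ∀ φ : ℂ × ℂ → X, ∀ b, (∀ y ∈ Nr (c.St i j).r, y.1 ≠ 0 →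
      Θ.g b T.out (φ y) = (y.1 / (‖y.1‖ : ℂ)) ^ (γ i j).val) →
      MapsTo φ (Nr (c.St i j).r) (Θ.U b) → ∀ a, ∀ y ∈ Nr (c.St i j).r, y.1 ≠ 0 →
      φ y ∈ L.U a ∩ Xo c.St → φ y ∈ L.U a ∩ Θ.U b ∧
        σ a T.out (φ y) = (y.1 / (‖y.1‖ : ℂ)) ^ (γ i j).val * σ a b (φ y) :=
    fun φ b k1 k2 a y hy h0 k => ⟨⟨k.1, k2 hy⟩, by
      rw [hσ.rel a T.out a b _ k.1 (hout k.2) k.1 (k2 hy), g_self L k.1, k1 y hy h0]
      ring⟩
  obtain ⟨bp, bq, p1, p2, q1, q2⟩ : ∃ bp bq,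
      MapsTo (c.St i j).p (Nr (c.St i j).r) (Θ.U bp) ∧ (∀ y ∈ Nr (c.St i j).r, y.1 ≠ 0 →
        Θ.g bp T.out ((c.St i j).p y) = (y.1 / (‖y.1‖ : ℂ)) ^ (γ i j).val) ∧
      MapsTo (c.St i j).q (Nr (c.St i j).r) (Θ.U bq) ∧ ∀ y ∈ Nr (c.St i j).r, y.1 ≠ 0 →
        Θ.g bq T.out ((c.St i j).q y) = (y.1 / (‖y.1‖ : ℂ)) ^ (γ i j).val := by
    rcases z2 (γ i j) with k | k
    · have k1 : (c.St i j).nb ⊆ Θ.U T.out := fun x hx => by
        rw [T.U_out]
        refine fun a => hnb x hx _ _ fun e => ?_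
        have := (q a).2
        rw [Prod.mk.eta] at e
        rw [← e, k] at this
        exact absurd this (by decide)
      rw [k, ZMod.val_zero]
      exact ⟨T.out, T.out, fun y hy => k1 (Or.inl ⟨y, hy, rfl⟩),
        fun y hy _ => g_self Θ (k1 (Or.inl ⟨y, hy, rfl⟩)), fun y hy => k1 (Or.inr ⟨y, hy, rfl⟩),
        fun y hy _ => g_self Θ (k1 (Or.inr ⟨y, hy, rfl⟩))⟩
    · obtain ⟨a, ha⟩ := q.surjective ⟨(i, j), k⟩
      have k1 := T.U_p a
      have k2 := T.U_q a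
      have k3 := T.g_p a
      have k4 := T.g_q a
      simp only [ha] at k1 k2 k3 k4
      rw [k, ZMod.val_one]
      simp only [pow_one]
      exact ⟨T.ip a, T.iq a, fun y hy => k1 ▸ ⟨y, hy, rfl⟩, k3, fun y hy => k2 ▸ ⟨y, hy, rfl⟩, k4⟩
  refine model cob (hσ.rd T.out hXo hout) (c.St i j) s5.continuousOn (fun z hz i' j' => ?_) (γ i j)
    (hσ.rd bp (Θ.opn bp) subset_rfl) (hσ.rd bq (Θ.opn bq) subset_rfl) p1 q1 rfl rfl
    (key _ bp p2 p1) (key _ bq q2 q1)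
  have k : sq (c.St i j) z ∈ (c.St i j).nb \ (c.St i j).set := s7 ▸ mem_image_of_mem _ hz
  by_cases e : (i, j) = (i', j')
  · rw [Prod.mk.injEq] at e
    exact e.1 ▸ e.2 ▸ k.2
  · exact hnb _ k.1 _ _ e

end Vale.Agent.P247Y.J
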