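import Vale.Agent.P247Y.Dc
import Vale.Agent.P247O.Cv
import Vale.Agent.P247Y.Yconn
import Vale.Agent.P247M.PB

/-!
# P247, block Y: row KPFIN, the Kummer presentation from the product structure
-/

set_option linter.all false

open scoped Manifold ContDiff Topology
open Set MeasureTheory Filter Metric Function

noncomputable section

namespace Vale.Agent.P247Y.J

open Vale.Agent.P247.SCY
open Vale.Agent.P247.SCY.HS
open Vale.Agent.P247X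
open Vale.Agent.P247.H74 (R4 P2 e)
open Vale.Agent.P247.H574 (tr)

namespace KpH

section tor

variable {Z : Type} [TopologicalSpace Z] [ChartedSpace HS.E4 Z] {J : EndF Z}

theorem dm_shift (T : Tor J) (h z a : ℂ) :
    (dm (fun z => T.u (z + h)) z a : HS.E4) = dm T.u (z + h) a := by
  have h1 : HasMFDerivAt 𝓘(ℝ, ℂ) 𝓘(ℝ, ℂ) (fun z : ℂ => z + h) z (ContinuousLinearMap.id ℝ ℂ) :=
    ((hasFDerivAt_id z).add_const h).hasMFDerivAt
  have h2 := ((Tor.mdiff T (z + h)).hasMFDerivAt.comp z h1).mfderiv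
  exact congrArg (fun A : ℂ →L[ℝ] HS.E4 => A a) h2

/-- translated tori -/
def shift (T : Tor J) (h : ℂ) : Tor J where
  u z := T.u (z + h)
  τ := T.τ
  τ_pos := T.τ_pos
  smooth := T.smooth.comp (contDiff_id.add contDiff_const).contMDiff
  per m n z := by rw [← T.per m n (z + h)]; congr 1; ring
  inj z z' e := by
    obtain ⟨m, n, k⟩ := T.inj _ _ e
    exact ⟨m, n, by linear_combination k⟩
  imm z := by
    have := dm_shift T h z 1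
    exact fun k => T.imm (z + h) (this.symm.trans k)
  hol z := by
    have h1 := dm_shift T h z 1
    have h2 := dm_shift T h z Complex.I
    have h3 := T.hol (z + h)
    exact h2.trans (h3.trans (congrArg (J (T.u (z + h))) h1.symm))

theorem shift_set (T : Tor J) (h : ℂ) : (shift T h).set = T.set := by
  ext x
  exact ⟨fun ⟨z, k⟩ => ⟨_, k⟩, fun ⟨z, k⟩ => ⟨z - h, by
    show T.u (z - h + h) = x
    rw [sub_add_cancel]; exact k⟩⟩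

theorem dm_lin {Q : R4 → Z} (hQ : ContMDiff 𝓘(ℝ, R4) (𝓡 4) ∞ Q) (T : Tor J) (ℓ : P2 →L[ℝ] R4)
    (k : P2 →L[ℝ] ℂ) (h : ∀ p, Q (ℓ p) = T.u (k p)) (p a : P2) :
    (dm4 Q (ℓ p) (ℓ a) : HS.E4) = dm T.u (k p) (k a) := by
  have h1 := ((hQ (ℓ p)).mdifferentiableAt (by simp)).hasMFDerivAt.comp p
    ℓ.hasFDerivAt.hasMFDerivAt
  have h2 := (Tor.mdiff T (k p)).hasMFDerivAt.comp p k.hasFDerivAt.hasMFDerivAt
  have h3 : Q ∘ ℓ = T.u ∘ k := funext h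
  rw [h3] at h1
  exact congrArg (fun A : P2 →L[ℝ] HS.E4 => A a) (hasMFDerivAt_unique h1 h2)

theorem hol_pt {Q : R4 → Z} (hQ : ContMDiff 𝓘(ℝ, R4) (𝓡 4) ∞ Q) (T : Tor J) (u v : R4)
    (h : ∀ s t : ℝ, Q (s • u + t • v) = T.u (s + t * T.τ)) (s : ℝ) :
    ∃ a b : ℝ, 0 < b ∧ dm4 Q (s • u) v = a • dm4 Q (s • u) u +
      b • J (Q (s • u)) (dm4 Q (s • u) u) := by
  let ℓ : P2 →L[ℝ] R4 := (ContinuousLinearMap.fst ℝ ℝ ℝ).smulRight u +
    (ContinuousLinearMap.snd ℝ ℝ ℝ).smulRight v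
  let k : P2 →L[ℝ] ℂ := (ContinuousLinearMap.fst ℝ ℝ ℝ).smulRight 1 +
    (ContinuousLinearMap.snd ℝ ℝ ℝ).smulRight T.τ
  have h0 : ∀ p, Q (ℓ p) = T.u (k p) := fun p => by
    have := h p.1 p.2
    simpa [ℓ, k] using this
  have h1 := dm_lin hQ T ℓ k h0 (s, 0) (1, 0)
  have h2 := dm_lin hQ T ℓ k h0 (s, 0) (0, 1)
  have h3 := h0 (s, 0)
  have e1 : ℓ (s, 0) = s • u := by simp [ℓ]
  have e2 : ℓ (1, 0) = u := by simp [ℓ]
  have e3 : ℓ (0, 1) = v := by simp [ℓ]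
  have e4 : k (1, 0) = 1 := by simp [k]
  have e5 : k (0, 1) = T.τ := by simp [k]
  rw [e1, e2, e4] at h1
  rw [e1, e3, e5] at h2
  rw [e1] at h3
  refine ⟨T.τ.re, T.τ.im, T.τ_pos, ?_⟩
  have h4 := cplx_lin (V := HS.E4) (mfderiv 𝓘(ℝ, ℂ) (𝓡 4) T.u (k (s, 0))) T.τ
  have h5 : (dm T.u (k (s, 0)) Complex.I : HS.E4) =
      (J (T.u (k (s, 0))) : HS.E4 →L[ℝ] HS.E4) (dm T.u (k (s, 0)) 1) := T.hol _
  have h6 : (J (T.u (k (s, 0))) : HS.E4 →L[ℝ] HS.E4) = (J (Q (s • u)) : HS.E4 →L[ℝ] HS.E4) := by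
    rw [h3]
  have h7 : (dm T.u (k (s, 0)) Complex.I : HS.E4) =
      (J (Q (s • u)) : HS.E4 →L[ℝ] HS.E4) (dm4 Q (s • u) u) :=
    h5.trans ((congrArg (fun A : HS.E4 →L[ℝ] HS.E4 => A (dm T.u (k (s, 0)) 1)) h6).trans
      (congrArg (J (Q (s • u)) : HS.E4 →L[ℝ] HS.E4) h1.symm))
  exact h2.trans (h4.trans (congrArg₂ (fun x y : HS.E4 => T.τ.re • x + T.τ.im • y) h1.symm h7))

end tor

/-- the half lattice points -/
def hv (a : Fin 4 → Fin 2) : R4 := fun i => ((a i : ℕ) : ℝ) / 2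

theorem hv_mem (a : Fin 4 → Fin 2) : hv a ∈ Hf := fun i => ⟨(a i : ℕ), by simp [hv]⟩

theorem hv_inj {a b : Fin 4 → Fin 2} {k : Fin 4 → ℤ} (h : hv b = tr k (hv a)) : a = b := by
  funext i
  have h1 : ((b i : ℕ) : ℝ) / 2 = ((a i : ℕ) : ℝ) / 2 + k i := congrFun h i
  have h2 : ((b i : ℕ) : ℤ) = (a i : ℕ) + 2 * k i := by
    have : (((b i : ℕ) : ℤ) : ℝ) = (((a i : ℕ) + 2 * k i : ℤ) : ℝ) := by push_cast; linarith
    exact_mod_cast this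
  have := (a i).2
  have := (b i).2
  exact Fin.ext (by omega)

theorem hv_surj {x : R4} (hx : x ∈ Hf) : ∃ a k, x = tr k (hv a) := by
  choose n hn using hx
  refine ⟨fun i => ⟨(n i % 2).toNat, by omega⟩, fun i => n i / 2, funext fun i => ?_⟩
  have h1 : (((n i % 2).toNat : ℕ) : ℤ) = n i % 2 := by omega
  have h2 : (((n i % 2).toNat : ℕ) : ℝ) = ((n i % 2 : ℤ) : ℝ) := by exact_mod_cast h1
  have h3 : (n i : ℝ) = ((n i % 2 : ℤ) : ℝ) + 2 * ((n i / 2 : ℤ) : ℝ) := by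
    have : n i = n i % 2 + 2 * (n i / 2) := by omega
    exact_mod_cast this
  show x i = (((n i % 2).toNat : ℕ) : ℝ) / 2 + ((n i / 2 : ℤ) : ℝ)
  rw [hn i, h2]
  linarith

theorem hf_count : Hf.Countable := by
  refine (countable_range fun n : Fin 4 → ℤ => (fun i => (n i : ℝ) / 2 : R4)).mono fun x hx => ?_
  choose n hn using hx
  exact ⟨n, funext fun i => (hn i).symm⟩

theorem hf_conn : IsPreconnected (Hfᶜ : Set R4) :=
  (hf_count.isConnected_compl_of_one_lt_rank (by simp)).isPreconnected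

theorem not_hf (i : Fin 4) : (1 / 4 : ℝ) • e i ∉ Hf := fun h => by
  obtain ⟨n, hn⟩ := h i
  have h1 : (1 / 4 : ℝ) = n / 2 := by simpa [e] using hn
  have h2 : ((2 * n : ℤ) : ℝ) = (1 : ℤ) := by push_cast; linarith
  have h3 : 2 * n = 1 := by exact_mod_cast h2
  omega

variable {X : Type} [Cl4 X] {c : Ctx X} {Y : DC c.St}

theorem exists_odd {S : Sph (Jw c.w)} {i j : Fin 4 → Fin 4} {T : Tor Y.P.J}
    (h : OddTor Y S i j T) (k : Fin 4) : ∃ T' : Tor Y.P.J, T'.set = T.set ∧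
      (∀ z, T'.u (-z) = Y.ι (T'.u z)) ∧ T'.u 0 = Y.pt (i k) (j k) := by
  obtain ⟨σ, hσ⟩ := h.half
  refine ⟨shift T (hp T.τ (σ.symm k)), shift_set _ _, fun z => ?_, ?_⟩
  · show T.u (-z + _) = Y.ι (T.u (z + _))
    rw [← h.odd, ← T.per ((σ.symm k).1 : ℕ) ((σ.symm k).2 : ℕ) (-(z + _))]
    congr 1
    simp only [hp]
    push_cast
    ring
  · show T.u (0 + _) = _
    rw [zero_add, (hσ _).1, σ.apply_symm_apply]

/-- the properties of the product map -/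
structure PM (Y : DC c.St) (Q : R4 → Y.Y) : Prop where
  sm : ContMDiff 𝓘(ℝ, R4) (𝓡 4) ∞ Q
  bij : ∀ x, Bijective (dm4 Q x)
  surj : Surjective Q
  fib : ∀ x y, Q x = Q y ↔ ∃ k, y = tr k x
  odd : ∀ x, Q (-x) = Y.ι (Q x)

variable {Q : R4 → Y.Y} (h : PM Y Q)
include h

theorem PM.per (k : Fin 4 → ℤ) (x : R4) : Q (tr k x) = Q x := ((h.fib _ _).2 ⟨k, rfl⟩).symm

theorem PM.mem {x : R4} : Q x ∈ Y.Yo ↔ x ∉ Hf := by
  refine ⟨fun k hx => Y.ι_ne k ?_, fun hx => (Y.cases _).resolve_right fun ⟨i, j, k⟩ => hx ?_⟩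
  · choose n hn using hx
    rw [← h.odd, ← h.per n (-x)]
    congr 1
    funext i
    show -x i + n i = x i
    rw [hn i]
    ring
  · obtain ⟨n, hn⟩ := (h.fib x (-x)).1 (by rw [h.odd, k, Y.ι_pt])
    intro i
    have h1 : -x i = x i + n i := congrFun hn i
    exact ⟨-n i, by push_cast; linarith⟩

theorem PM.opn : IsOpen (Hfᶜ : Set R4) := by
  have : (Hfᶜ : Set R4) = Q ⁻¹' Y.Yo := Set.ext fun x => h.mem.symm
  rw [this]
  exact Y.Yo_open.preimage h.sm.continuous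

theorem PM.smP : ContMDiffOn 𝓘(ℝ, R4) (𝓡 4) ∞ (Y.pr ∘ Q) Hfᶜ :=
  Y.pr_smooth.comp h.sm.contMDiffOn fun _ hx => h.mem.2 hx

theorem PM.dP {x : R4} (hx : x ∉ Hf) : (mfderiv 𝓘(ℝ, R4) (𝓡 4) (Y.pr ∘ Q) x : R4 →L[ℝ] HS.E4) =
    (mfderiv (𝓡 4) (𝓡 4) Y.pr (Q x)).comp (mfderiv 𝓘(ℝ, R4) (𝓡 4) Q x) :=
  mfderiv_comp x ((Y.pr_at (h.mem.2 hx)).mdifferentiableAt (by simp))
    ((h.sm x).mdifferentiableAt (by simp))

theorem PM.bijP {x : R4} (hx : x ∉ Hf) : Bijective (dm4 (Y.pr ∘ Q) x) := by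
  have h1 := (Y.pr_bij _ (h.mem.2 hx)).comp (h.bij x)
  have h2 := h.dP hx
  show Bijective (mfderiv 𝓘(ℝ, R4) (𝓡 4) (Y.pr ∘ Q) x : R4 →L[ℝ] HS.E4)
  rw [h2]
  exact h1

theorem PM.holP {x u v : R4} (hx : x ∉ Hf) {a b : ℝ}
    (k : dm4 Q x v = a • dm4 Q x u + b • Y.P.J (Q x) (dm4 Q x u)) (φ : Form X 2) :
    φ ((Y.pr ∘ Q) x) ![dm4 (Y.pr ∘ Q) x u, dm4 (Y.pr ∘ Q) x v] =
      b * φ ((Y.pr ∘ Q) x) ![dm4 (Y.pr ∘ Q) x u,
        Jw c.w ((Y.pr ∘ Q) x) (dm4 (Y.pr ∘ Q) x u)] := by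
  have h1 : ∀ t, (dm4 (Y.pr ∘ Q) x t : HS.E4) = mfderiv (𝓡 4) (𝓡 4) Y.pr (Q x) (dm4 Q x t) :=
    fun t => congrArg (fun A : R4 →L[ℝ] HS.E4 => A t) (h.dP hx)
  have h2 : dm4 (Y.pr ∘ Q) x v = a • dm4 (Y.pr ∘ Q) x u +
      b • Jw c.w ((Y.pr ∘ Q) x) (dm4 (Y.pr ∘ Q) x u) := by
    refine (h1 v).trans ?_
    rw [k, map_add, map_smul, map_smul, Y.J_pr _ (h.mem.2 hx)]
    erw [h1 u]
    rfl
  rw [h2]
  erw [alt2_add_right (V := HS.E4), alt2_smul_right (V := HS.E4), alt2_smul_right (V := HS.E4),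
    alt2_self (V := HS.E4)]
  rw [mul_zero, zero_add]
  rfl

theorem PM.tame {x u : R4} (hx : x ∉ Hf) (hu : u ≠ 0) :
    0 < c.w 2 ((Y.pr ∘ Q) x) ![dm4 (Y.pr ∘ Q) x u,
      Jw c.w ((Y.pr ∘ Q) x) (dm4 (Y.pr ∘ Q) x u)] :=
  Jf_tames (defAt c.hw) _ _ fun k => hu ((h.bijP hx).1 (k.trans (map_zero _).symm))

theorem PM.pos {i j : Fin 4} (hij : i ≠ j)
    (k : ∀ x, ∃ a b : ℝ, dm4 Q x (e j) = a • dm4 Q x (e i) + b • Y.P.J (Q x) (dm4 Q x (e i)))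
    (k0 : ∃ x, x ∉ Hf ∧ ∃ a b : ℝ, 0 < b ∧
      dm4 Q x (e j) = a • dm4 Q x (e i) + b • Y.P.J (Q x) (dm4 Q x (e i))) {x : R4} (hx : x ∉ Hf) :
    0 < c.w 2 ((Y.pr ∘ Q) x) ![dm4 (Y.pr ∘ Q) x (e i), dm4 (Y.pr ∘ Q) x (e j)] := by
  have hi : e i ≠ 0 := fun k => by simpa [e] using congrFun k i
  let β : R4 → ℝ := fun x => P247M.pb (Y.pr ∘ Q) (c.w 2) x ![e i, e j]
  have hβ : ∀ x, β x = c.w 2 ((Y.pr ∘ Q) x) ![dm4 (Y.pr ∘ Q) x (e i), dm4 (Y.pr ∘ Q) x (e j)] :=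
    fun x => P247M.pb_two _ _ _ _ _
  have hc : ContinuousOn β Hfᶜ := by
    have h1 := P247M.continuousOn_pb h.opn h.smP (hyp_sc c.hw 2).cont
    exact (continuous_eval_const ![e i, e j]).comp_continuousOn h1
  have hne : ∀ x ∈ (Hfᶜ : Set R4), β x ≠ 0 := fun x hx => by
    obtain ⟨a, b, k1⟩ := k x
    rw [hβ, h.holP hx k1]
    refine mul_ne_zero (fun hb => ?_) (h.tame hx hi).ne'
    rw [hb, zero_smul, add_zero] at k1
    have := congrFun ((h.bij x).1 (k1.trans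
      (map_smul (mfderiv 𝓘(ℝ, R4) (𝓡 4) Q x) a (e i)).symm)) j
    simp [e, hij.symm] at this
  obtain ⟨x0, hx0, a, b, hb, k1⟩ := k0
  have h0 : 0 < β x0 := by
    rw [hβ, h.holP hx0 k1]
    exact mul_pos hb (h.tame hx0 hi)
  rw [← hβ]
  by_contra hle
  obtain ⟨y, hy, k2⟩ := hf_conn.intermediate_value hx hx0 hc ⟨not_lt.1 hle, h0.le⟩
  exact hne y hy k2

theorem PM.pts : ∃ I K : (Fin 4 → Fin 2) → Fin 4, (∀ a, Q (hv a) = Y.pt (I a) (K a)) ∧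
    (∀ a b, a ≠ b → (I a, K a) ≠ (I b, K b)) ∧ ∀ i j, ∃ a, I a = i ∧ K a = j := by
  have h1 : ∀ a, ∃ i j, Q (hv a) = Y.pt i j := fun a =>
    (Y.cases _).resolve_left fun k => h.mem.1 k (hv_mem a)
  choose I K hI using h1
  refine ⟨I, K, hI, fun a b hab k => hab ?_, fun i j => ?_⟩
  · rw [Prod.mk.injEq] at k
    obtain ⟨n, hn⟩ := (h.fib _ _).1 ((hI a).trans (by rw [k.1, k.2, hI b]))
    exact hv_inj hn
  · obtain ⟨x, hx⟩ := h.surj (Y.pt i j)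
    have h2 : x ∈ Hf := by
      by_contra k
      exact Y.pt_not i j (hx ▸ h.mem.2 k)
    obtain ⟨a, n, rfl⟩ := hv_surj h2
    rw [h.per, hI] at hx
    exact ⟨a, Y.pt_inj _ _ _ _ hx⟩

theorem PM.theta {a : Fin 4 → Fin 2} {i j : Fin 4} (k : Q (hv a) = Y.pt i j) :
    ∃ (θ : ℂ × ℂ → R4) (U : Set (ℂ × ℂ)), U ∈ 𝓝 (0 : ℂ × ℂ) ∧ θ 0 = hv a ∧
      ∀ ρ ≤ (c.St i j).r, B2 ρ ⊆ U → ContDiffOn ℝ ∞ θ (B2 ρ) ∧
        (∀ z ∈ B2 ρ, Bijective (fderiv ℝ θ z)) ∧ (∀ z ∈ B2 ρ, Q (θ z) = Y.ch i j z) ∧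
        ∀ z ∈ B2 ρ, θ (-z) = fun l => ((a l : ℕ) : ℝ) - θ z l := by
  obtain ⟨E, h1, -, h3, h4⟩ := locInv isOpen_univ h.sm.contMDiffOn (mem_univ (hv a)) (h.bij _)
  have hE : (E : R4 → Y.Y) = Q := funext h3
  have h5 : ContMDiffOn 𝓘(ℝ, R4) (𝓡 4) ∞ E E.source := hE ▸ h.sm.contMDiffOn
  have hn := (b2_open _).mem_nhds (b2_zero (c.St i j).r_pos)
  have hc : ContinuousAt (Y.ch i j) 0 := (Y.ch_smooth i j).continuousOn.continuousAt hn
  have h6 : Y.ch i j 0 = E (hv a) := by rw [Y.ch_zero, h3, k]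
  have h7 : Y.ch i j 0 ∈ E.target := h6 ▸ E.map_source h1
  have h8 : E.symm (Y.ch i j 0) = hv a := by rw [h6, E.left_inv h1]
  have h9 : ContinuousAt (fun z => (fun l => ((a l : ℕ) : ℝ) - E.symm (Y.ch i j z) l : R4)) 0 := by
    have := (E.continuousAt_symm h7).comp hc
    exact continuousAt_pi.2 fun l => continuousAt_const.sub ((continuous_apply l).continuousAt.comp this)
  have h10 : (fun l => ((a l : ℕ) : ℝ) - E.symm (Y.ch i j 0) l : R4) ∈ E.source := by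
    rw [h8]
    convert h1 using 1
    funext l
    simp only [hv]
    ring
  refine ⟨fun z => E.symm (Y.ch i j z), _, inter_mem
    (hc.preimage_mem_nhds (E.open_target.mem_nhds h7))
    (h9.preimage_mem_nhds (E.open_source.mem_nhds h10)), h8, fun ρ hρ hU => ?_⟩
  have hs := YcH.B2_mono hρ
  have hQ : ∀ z ∈ B2 ρ, Q (E.symm (Y.ch i j z)) = Y.ch i j z := fun z hz => by
    rw [← h3, E.right_inv (hU hz).1]
  refine ⟨contMDiffOn_iff_contDiffOn.1 (h4.comp ((Y.ch_smooth i j).mono hs) fun z hz => (hU hz).1),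
    fun z hz => ?_, hQ, fun z hz => ?_⟩
  · have k1 := mfderiv_comp z ((h4.contMDiffAt (E.open_target.mem_nhds (hU hz).1)).mdifferentiableAt
      (by simp)) (((Y.ch_smooth i j).contMDiffAt ((b2_open _).mem_nhds (hs hz))).mdifferentiableAt
      (by simp))
    have k2 := (mfderiv_bij E.symm h4 h5 (hU hz).1).comp (Y.ch_bij i j z (hs hz))
    rw [mfderiv_eq_fderiv] at k1
    show Bijective (fderiv ℝ (E.symm ∘ Y.ch i j) z)
    erw [k1]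
    exact k2
  · refine E.injOn (E.map_target (hU (b2_neg hz)).1) (hU hz).2 ?_
    rw [h3, h3, hQ _ (b2_neg hz), Y.ch_neg i j z (hs hz), ← hQ z hz, ← h.odd,
      ← h.per (fun l => (a l : ℕ))]
    congr 1
    funext l
    simp only [tr, Pi.neg_apply]
    push_cast
    ring

theorem PM.kp (hs : STDB_statement)
    (k1 : ∀ x, ∃ a b : ℝ, dm4 Q x (e 1) = a • dm4 Q x (e 0) + b • Y.P.J (Q x) (dm4 Q x (e 0)))
    (k3 : ∀ x, ∃ a b : ℝ, dm4 Q x (e 3) = a • dm4 Q x (e 2) + b • Y.P.J (Q x) (dm4 Q x (e 2)))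
    (p1 : ∃ x, x ∉ Hf ∧ ∃ a b : ℝ, 0 < b ∧
      dm4 Q x (e 1) = a • dm4 Q x (e 0) + b • Y.P.J (Q x) (dm4 Q x (e 0)))
    (p3 : ∃ x, x ∉ Hf ∧ ∃ a b : ℝ, 0 < b ∧
      dm4 Q x (e 3) = a • dm4 Q x (e 2) + b • Y.P.J (Q x) (dm4 Q x (e 2))) :
    Nonempty (KP c.w) := by
  obtain ⟨I, K, hI, hinj, hsurj⟩ := h.pts
  choose θ U hU hθ0 hθ using fun a => h.theta (hI a)
  obtain ⟨a0, ha0⟩ := Finite.exists_min fun a => (c.St (I a) (K a)).r
  obtain ⟨ρ, hρ, hρ1, hρ2⟩ := YcH.B2_basis (iInter_mem.2 hU) (c.St (I a0) (K a0)).r_pos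
  have hle : ∀ a, ρ ≤ (c.St (I a) (K a)).r := fun a => hρ1.trans (ha0 a)
  have H := fun a => hθ a ρ (hle a) (hρ2.trans (iInter_subset _ a))
  have hsq : ∀ a, ∀ z ∈ B2 ρ, z ≠ 0 → Y.pr (Q (θ a z)) = sq (c.St (I a) (K a)) z :=
    fun a z hz h0 => by rw [(H a).2.2.1 z hz, Y.pr_ch _ _ z ⟨YcH.B2_mono (hle a) hz, h0⟩]
  refine ⟨{
    St := fun a => c.St (I a) (K a)
    disj := fun a b hab => c.disj _ _ _ _ (hinj a b hab)
    P := Y.pr ∘ Q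
    smooth := h.smP
    imm := fun x hx => h.bijP hx
    per := fun k x => congrArg Y.pr (h.per k x)
    even := fun x => by simp only [comp, h.odd, Y.pr_ι]
    inj := fun x y hx hy k => ?_
    off := fun x hx a => Y.pr_mem (h.mem.2 hx) _ _
    surj := fun z hz => ?_
    ρ := ρ
    ρ_pos := hρ
    ρ_le := hle
    θ := θ
    θ_smooth := fun a => (H a).1
    θ_imm := fun a => (H a).2.1
    θ_inj := fun a z hz z' hz' k => Y.ch_inj _ _ (YcH.B2_mono (hle a) hz) (YcH.B2_mono (hle a) hz')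
      (by rw [← (H a).2.2.1 z hz, k, (H a).2.2.1 z' hz'])
    θ_zero := fun a i => congrFun (hθ0 a) i
    θ_odd := fun a => (H a).2.2.2
    θ_off := fun a z hz h0 => h.mem.1 (by
      rw [(H a).2.2.1 z hz]; exact Y.ch_mem _ _ z ⟨YcH.B2_mono (hle a) hz, h0⟩)
    θ_p := fun a u ζ hu hz => ?_
    θ_q := fun a u ζ hu hz => ?_
    lag := fun x hx j => ?_
    pos := fun x hx => ⟨h.pos (by decide) k1 p1 hx, h.pos (by decide) k3 p3 hx⟩ }⟩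
  · rcases Y.pr_eq (h.mem.2 hx) (h.mem.2 hy) k with k' | k'
    · exact ((h.fib _ _).1 k'.symm).imp fun _ => Or.inl
    · exact ((h.fib _ _).1 ((h.odd x).trans k'.symm)).imp fun _ => Or.inr
  · obtain ⟨y, hy, rfl⟩ := Y.pr_surj (x := z) fun i j => by
      obtain ⟨a, rfl, rfl⟩ := hsurj i j
      exact hz a
    obtain ⟨x, rfl⟩ := h.surj y
    exact ⟨x, h.mem.1 hy, rfl⟩
  · refine (hsq a _ hz fun k => hu (congrArg Prod.fst k)).trans ?_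
    rw [sq, if_pos hu, mul_div_cancel_left₀ _ hu]
  · refine (hsq a _ hz fun k => hu (congrArg Prod.snd k)).trans ?_
    exact (hs X c.w _).2.2.2.2.2.2.2.2.1 u ζ hu (YcH.B2_mono (hle a) hz)
  · obtain ⟨a, b, k⟩ := k1 x
    obtain ⟨a', b', k'⟩ := k3 x
    rw [h.holP hx k, h.holP hx k', w_zero c.hw, w_zero c.hw, mul_zero, mul_zero]
    exact ⟨rfl, rfl⟩

end KpH

open KpH in
theorem kpfin : KPFIN_statement := by
  intro pre prod X _ c Y f g hf hg Ff Fg ιf ιg one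
  obtain ⟨A, hA, oA, zA⟩ := exists_odd (f.hA 0) 0
  obtain ⟨B, hB, oB, zB⟩ := exists_odd (g.hB 0) 0
  have lA : Leaf f A.set := Or.inl ⟨0, by rw [hA, FCtx.Sp, hf]; rfl⟩
  have lB : Leaf g B.set := Or.inl ⟨0, by rw [hB, FCtx.Sp, hg]; rfl⟩
  obtain ⟨Q, q1, q2, q3, q4, q5, q6, q7, q8, q9⟩ := prod pre.folb pre.tang Y.Y Y.P.J (Leaf f)
    (Leaf g) Y.P.ac.sq Ff Fg one A B lA lB (zA.trans zB.symm)
  have h : PM Y Q := by
    refine ⟨q1, q2, q3, q4, fun x => ?_⟩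
    obtain ⟨L, M, hL, hM, m1, m2, m3, m4⟩ := q5 x
    obtain ⟨L', M', hL', hM', n1, n2, n3, n4⟩ := q5 (-x)
    have e1 : Y.ι '' L = L' := Ff.uniq _ _ (ιf L hL) hL' ⟨_, mem_image_of_mem _ m3, by
      rw [← oB]; convert n3 using 2; simp only [Pi.neg_apply]; push_cast; ring⟩
    have e2 : Y.ι '' M = M' := Fg.uniq _ _ (ιg M hM) hM' ⟨_, mem_image_of_mem _ m4, by
      rw [← oA]; convert n4 using 2; simp only [Pi.neg_apply]; push_cast; ring⟩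
    obtain ⟨y, hy⟩ := (one L' M' hL' hM').1
    have k1 : Q (-x) ∈ ({y} : Set Y.Y) := hy ▸ ⟨n1, n2⟩
    have k2 : Y.ι (Q x) ∈ ({y} : Set Y.Y) :=
      hy ▸ ⟨e1 ▸ mem_image_of_mem _ m1, e2 ▸ mem_image_of_mem _ m2⟩
    exact k1.trans k2.symm
  refine h.kp pre.stdb q6 q7 ⟨_, not_hf 0, hol_pt q1 A (e 0) (e 1) (fun s t => ?_) _⟩
    ⟨_, not_hf 2, hol_pt q1 B (e 2) (e 3) (fun s t => ?_) _⟩
  · rw [← q8]
    congr 1
    funext i
    fin_cases i <;> simp [e]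
  · rw [← q9]
    congr 1
    funext i
    fin_cases i <;> simp [e]

end Vale.Agent.P247Y.J
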