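import Vale.Agent.P247Y.Dcx
import Vale.Agent.P247Y.Prt
import Vale.Agent.P247O.Sta

/-!
# P247, block G: rows YCONN, DCX, PRT
-/

set_option linter.all false

open scoped Manifold ContDiff Topology
open Set MeasureTheory Filter Metric Function

noncomputable section

namespace Vale.Agent.P247Y.J

open Vale.Agent.P247.SCY
open Vale.Agent.P247.SCY.HS
open Vale.Agent.P247X
open Vale.Agent.P247.H74 (P2)
open Vale.Agent.P290Z.Lat (cs)

open YcH in
theorem yconn : YCONN_statement := by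
  intro _ X _ c Y
  have key : ∀ O : Set Y.Y, IsClopen O → Y.pt 0 0 ∈ O → O = univ := fun O hO h0 => by
    have h := inv_clopen Y c.disj (hO.inter (hO.preimage Y.ι_smooth.continuous))
      (fun y hy => ⟨hy.2, by rw [mem_preimage, ι_ι]; exact hy.1⟩)
      ⟨h0, by rw [mem_preimage, Y.ι_pt]; exact h0⟩
    exact eq_univ_of_univ_subset (h ▸ inter_subset_left)
  have : PreconnectedSpace Y.Y := preconnectedSpace_iff_clopen.2 fun O hO => by
    by_cases h : Y.pt 0 0 ∈ O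
    · exact Or.inr (key O hO h)
    · exact Or.inl (compl_univ_iff.1 (key _ hO.compl h))
  exact { toNonempty := ⟨Y.pt 0 0⟩ }

open DcH DcH.In YcH in
theorem dcx : DCX_statement := by
  intro _ X _ c Z hZ
  choose ℓ h1 h2 h3 using hZ
  let I : In c.St := ⟨Z, c.disj, fun k => ℓ k.1 k.2, fun k => h1 k.1 k.2, fun k => h2 k.1 k.2,
    fun k => h3 k.1 k.2⟩
  have hd := defAt c.hw
  have hJ := Jf_almostComplex hd (c.hw.smooth 2) (c.hw.smooth 0) (c.hw.smooth 1)
  have h0 := fun k : Fin 4 × Fin 4 => zero_mem_B2 (c.St k.1 k.2).r_pos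
  have hp : ∀ k a, I.J (I.pt k) (D (ℂ × ℂ) HS.E4 (I.ch k) 0 a) =
      D (ℂ × ℂ) HS.E4 (I.ch k) 0 (Complex.I • a) := fun k a => by
    rw [J_ch (h0 k), I.ch_zero]
  have hη : ∀ j k a b, I.η j (I.pt k) ![D (ℂ × ℂ) HS.E4 (I.ch k) 0 a,
      D (ℂ × ℂ) HS.E4 (I.ch k) 0 b] = 2 * ri (c.St k.1 k.2).s j (om0 a b) := fun j k a b => by
    rw [← Ω_apply, ← η_ch j (h0 k), I.ch_zero]
  let P : PairJ I.Y :=
    { η := I.η
      sc := η_sc (hyp_sc c.hw)
      J := I.J
      ac := ⟨J_smooth hJ.smooth, fun y (v : HS.E4) => by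
        change I.J y (I.J y v) = -v
        rcases I.cases y with ⟨z, rfl⟩ | ⟨k, rfl⟩
        · refine (pr_loc (I := I) ⟨z, rfl⟩).2.1 ?_
          rw [J_pr ⟨z, rfl⟩, J_pr ⟨z, rfl⟩, map_neg]
          exact Jf_sq hd _ _
        · obtain ⟨a, rfl⟩ := at_pt (I := I) k v
          rw [hp, hp, smul_smul, Complex.I_mul_I, neg_one_smul, map_neg]⟩
      anti := fun j y (u v : HS.E4) => by
        change I.η j y ![I.J y u, I.J y v] = -I.η j y ![u, v]
        rcases I.cases y with ⟨z, rfl⟩ | ⟨k, rfl⟩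
        · rw [η_pr j ⟨z, rfl⟩, η_pr j ⟨z, rfl⟩, J_pr ⟨z, rfl⟩, J_pr ⟨z, rfl⟩]
          fin_cases j
          · exact Jf_anti_B hd _ _ _
          · exact Jf_anti_C hd _ _ _
        · obtain ⟨a, rfl⟩ := at_pt (I := I) k u
          obtain ⟨b, rfl⟩ := at_pt (I := I) k v
          rw [hp, hp, hη, hη, om0_I, map_neg, mul_neg]
      ind := fun y a b h => by
        change ∀ u v : HS.E4, a * I.η 0 y ![u, v] + b * I.η 1 y ![u, v] = 0 at h
        rcases I.cases y with ⟨z, rfl⟩ | ⟨k, rfl⟩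
        · refine ind_of c.hw (I.pr (I.emb z)) a b fun u v => ?_
          obtain ⟨u, rfl⟩ := (pr_loc (I := I) ⟨z, rfl⟩).2.2 u
          obtain ⟨v, rfl⟩ := (pr_loc (I := I) ⟨z, rfl⟩).2.2 v
          have := h u v
          rwa [η_pr 0 ⟨z, rfl⟩, η_pr 1 ⟨z, rfl⟩] at this
        · have e1 := h (D (ℂ × ℂ) HS.E4 (I.ch k) 0 (1, 0)) (D (ℂ × ℂ) HS.E4 (I.ch k) 0 (0, 1))
          have e2 := h (D (ℂ × ℂ) HS.E4 (I.ch k) 0 (Complex.I, 0))
            (D (ℂ × ℂ) HS.E4 (I.ch k) 0 (0, 1))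
          rw [hη, hη] at e1 e2
          have hs : (c.St k.1 k.2).s ≠ 0 := fun h => by simpa [h] using (c.St k.1 k.2).s_sq
          simp [ri, om0, hs] at e1 e2
          exact ⟨e1, e2⟩ }
  exact ⟨{
    Y := I.Y
    top := inferInstance
    chart := inferInstance
    mfd := inferInstance
    t2 := inferInstance
    cov := Z
    emb := I.emb
    emb_open := I.emb_open
    pt := fun i j => I.pt (i, j)
    pt_inj := fun i j i' j' h => Prod.mk.inj (I.pt_inj h)
    range_emb := Set.ext fun y => ⟨by rintro ⟨z, rfl⟩ i j; exact I.emb_ne _ _, fun h => by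
      rcases I.cases y with ⟨z, rfl⟩ | ⟨k, rfl⟩
      · exact ⟨z, rfl⟩
      · exact (h k.1 k.2 rfl).elim⟩
    pr := I.pr
    pr_emb := fun _ => rfl
    pr_smooth := fun y hy => (pr_loc hy).1.contMDiffWithinAt
    pr_bij := fun y hy => (pr_loc hy).2
    ι := I.ι
    ι_smooth := ι_sm
    ι_emb := fun _ => rfl
    ι_pt := fun _ _ => rfl
    ch := fun i j => I.ch (i, j)
    ch_smooth := fun i j z hz => (ch_loc (k := (i, j)) hz).1.contMDiffWithinAt
    ch_bij := fun i j z hz => (ch_loc (k := (i, j)) hz).2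
    ch_inj := fun i j => I.ch_inj (i, j)
    ch_zero := fun i j => I.ch_zero (i, j)
    ch_neg := fun i j z hz => I.ch_neg (i, j) hz
    ch_mem := fun i j z hz => ch_mem (k := (i, j)) hz
    pr_ch := fun i j z hz => I.pr_ch (i, j) hz
    P := P
    η_pr := fun j y hy u v => η_pr j hy u v
    J_pr := fun y hy u => J_pr hy u
    J_ch := fun i j z hz a => J_ch (k := (i, j)) hz a
    J_ι := J_ι }⟩

open FolH PrtH in
theorem PRT : PRT_statement := by
  intro pre X _ c Y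
  have ho : IsOpen (range Y.emb) := Y.emb_open.isOpen_range
  refine ⟨fun T h1 h2 => ⟨mapTor T Y.pr
      (fun z => Y.pr_smooth.contMDiffAt (ho.mem_nhds (h1 ⟨z, rfl⟩))) h2
      (fun z => (Y.pr_bij _ (h1 ⟨z, rfl⟩)).1) fun z v => Y.J_pr _ (h1 ⟨z, rfl⟩) v, rfl, rfl⟩,
    fun T => ⟨mapTor T Y.ι (fun z => Y.ι_smooth _)
      (LeftInverse.injective Y.ι_ι₀).injOn (fun z a b h => ?_) fun z v => Y.J_ι _ v, rfl, rfl⟩,
    fun K u hu h1 h2 h3 => ?_, fun s K Ψ hs hs2 hΨ hK y hy y' hy' α hα => ⟨hα.1, fun φ hφ => ?_⟩⟩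
  · have h4 := fun v => mfderiv_left_inv ((Y.ι_smooth (T.u z)).mdifferentiableAt (by simp))
      ((Y.ι_smooth _).mdifferentiableAt (by simp)) (Eventually.of_forall Y.ι_ι₀) v
    rw [← h4 a, h, h4 b]
  · have hK : K.u = fun z => Y.pr (u z) := funext fun z => (h2 z).symm
    have hsm : ContMDiff 𝓘(ℝ, ℂ) (𝓡 4) ∞ u := fun z =>
      lift_sm ho Y.pr_smooth (h1 z) (Y.pr_bij _ (h1 z)).1 hu.continuousAt (hK ▸ K.smooth z)
    have hd := fun z a => dm_map ((Y.pr_smooth.contMDiffAt (ho.mem_nhds (h1 z))).mdifferentiableAt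
      (by simp)) ((hsm z).mdifferentiableAt (by simp)) a
    refine ⟨⟨u, K.τ, K.τ_pos, hsm, h3, fun z z' h => K.inj z z' (by rw [← h2, ← h2, h]),
      fun z h => ?_, fun z => ?_⟩, rfl, rfl⟩
    · have h5 := K.imm z
      rw [hK, hd, h] at h5
      exact h5 (map_zero _)
    · have h5 := K.hol z
      unfold JAt at h5 ⊢
      rw [hK, hd, hd] at h5
      exact (Y.pr_bij _ (h1 z)).1 (h5.trans (Y.J_pr _ (h1 z) _).symm)
  · rw [← hα.2 φ hφ]
    choose I hI1 hI2 hI3 using (pre.bb.emb X c.μ c.top.vol c.w c.hw).2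
    have irr := pre.bb.irr X c.μ c.top.vol c.w c.hw
    obtain ⟨v, hv⟩ := c.M.span φ hφ
    have hexp : ∀ T : Tor (Jw c.w), T.int φ = ∑ i, v i * T.int (c.M.c i) := by
      intro T
      have hP := (irr (I T)).1
      have h4 := hP.closed _ (smooth_sub hφ.1 (sc_lc c.M.sc v).1) hv
      have h5 := hP.add _ _ (hφ.sub (sc_lc c.M.sc v)).cont (sc_lc c.M.sc v).cont
      simp only [sub_add_cancel] at h5
      rw [← hI3 T φ hφ.cont, h5, h4, zero_add]
      refine (lin_sum hP.toLinC _ fun i => (c.M.sc i).smul (v i)).trans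
        (Finset.sum_congr rfl fun i _ => ?_)
      rw [hP.smul _ _ (c.M.sc i).cont, hI3 T _ (c.M.sc i).cont]
    rw [hexp, hexp]
    refine Finset.sum_congr rfl fun i _ => congrArg (v i * ·) ?_
    have hint : ∀ T : Tor (Jw c.w), T.int (c.M.c i) ∈ range ((↑) : ℤ → ℝ) := by
      intro T
      obtain ⟨L, hL⟩ := c.M.int (Pi.single i 1)
      obtain ⟨n, hn⟩ := (irr (I T)).2.2.2.1 L
      rw [hL, lc_single, hI3 T _ (c.M.sc i).cont] at hn
      exact ⟨n, hn.symm⟩
    exact hs2.constant_of_mapsTo Int.isClosedEmbedding_coe_real.isEmbedding.isDiscrete_range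
      (int_cont hs hΨ hK (c.M.sc i).cont) (fun z _ => hint _) hy' hy

end Vale.Agent.P247Y.J
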