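import Vale.Agent.P247O.Asmy
import Vale.Agent.P247O.Kpfin
import Vale.Agent.P247O.Near
import Vale.Agent.P247O.Ydp
import Vale.Agent.P247O.Covx
import Vale.Agent.P247O.Divx
import Vale.Agent.P247Y.Prod
import Vale.Agent.P247Y.Folx
import Vale.Agent.P247Y.Fam
import Vale.Agent.P247Y.Transpl
import Vale.Agent.P247Y.Tube
import Vale.Agent.P247Y.Folb

/-!
# P247, block G: the Kummer presentation for markings of any rank
-/

namespace Vale.Agent.P247Y.J

theorem kum_of (bb : BB) (thom : THOM_statement) : KUM_statement :=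
  asmy2 ⟨bb, FOLX COB tube TRANSPL FAM, FOLB, TANG, LIFTX COB, stdb, cls, geom⟩
    (covx (divx thom COB stdb) TOCOV stdb) dcx yconn PRT near openg closed foli meet PROD kpfin

end Vale.Agent.P247Y.J
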