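import Vale.Agent.P247O.Asm
import Vale.Agent.P247M.MarkN

/-!
# P247, block G: existence of markings
-/

namespace Vale.Agent.P247X.J

theorem mark (hE : EVEN_statement) : MARK_statement := by
  intro X _ μ hμ hp h19 w hw
  obtain ⟨n, G, c, h1, h2, h3, h4, h5, h6, -⟩ := P247M.markN hE hμ hp hw
  exact ⟨⟨n, G, h1, c, h2, h3, h4, h5⟩, h6 19 h19⟩

end Vale.Agent.P247X.J
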