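import Vale.Agent.P247X.AllK
import Vale.Agent.P247O.Kum
import Vale.Agent.P247O.Mark
import Vale.Agent.P247O.F
import Vale.Agent.P247G.Per

/-!
# P247, block G: target 1 for every `b⁻ ≥ 19`
-/

namespace Vale.Agent.P247X.J

open Vale.Agent

theorem nm : NM_statement :=
  P247F.J.nm siua P247L.LSXX P247C.dec P247C.irr P247C.emb P247C.adj

theorem thmK19 : P247A.ThmK19_statement :=
  asmk root (mark P247I.even) P247G.period (P247F.J.ch1 nm P247C.irr P247C.emb)
    (P247F.J.ch2 root nm P247C.irr P247C.emb) P247C.emb P247C.irr P247C.pos P247S.str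
    (P247Y.J.kum_of (bb_of flat) thomY) P247T.flatend
    (P247F.J.free_of root nm P247C.irr P247C.emb P247F.hkend)

end Vale.Agent.P247X.J
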