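import Vale.Agent.P247X.Asm
import Vale.Agent.P247O.Spec
import Vale.Agent.P247A.Spec2

/-!
# P247, general four-manifolds: assembly of target 1
-/

set_option linter.all false

open scoped Manifold ContDiff Topology
open Set MeasureTheory Filter Metric

noncomputable section

namespace Vale.Agent.P247X.J

open Vale.Agent.P247.SCY
open Vale.Agent.P247.SCY.HS
open Vale.Agent.P290.H726 (bil)
open Vale.Agent.P290Z.Lat (cs)

variable {X : Type} [Cl4 X] {μ : Form X 4} {w : Tri X}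

theorem lift_chain (hC : CH1_statement) (h0 : Top0 μ) (M : Marking μ) (hw : Hypersymplectic μ w)
    {a a' : Fin 3 → Fin M.n → ℝ} (hr : M.Rep w a) (h : Relation.ReflTransGen (LMove M.G) a a') :
    ∃ w', Chain μ w w' ∧ M.Rep w' a' := by
  induction h with
  | refl => exact ⟨w, .refl, hr⟩
  | tail _ h ih =>
    obtain ⟨w', h1, h2⟩ := ih
    obtain ⟨w'', h3, h4⟩ := hC X μ h0 M w' (h1.hyp hw) _ _ h2 h
    exact ⟨w'', h1.tail h3, h4⟩

/-- markings of rank at least `22` -/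
def MARK_statement : Prop := ∀ (X : Type) [Cl4 X] (μ : Form X 4), Volume μ → BPlusLe3 μ →
  BMinusGe μ 19 → ∀ w : Tri X, Hypersymplectic μ w → ∃ M : Marking μ, 22 ≤ M.n

theorem asmk (hR : ROOT_statement) (hM : MARK_statement) (hPer : PERIOD_statement)
    (hC1 : CH1_statement) (hC2 : CH2_statement) (hE : EMB_statement) (hI : IRR_statement)
    (hP : POS_statement) (hS : STR_statement) (hK : KUM_statement) (hT : FLATEND_statement)
    (hF : FREE_statement) : P247A.ThmK19_statement := by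
  intro X _ μ h0 b1 w hw hn
  have hμ := h0.vol
  obtain ⟨M, hM⟩ := hM X μ hμ h0.bp b1 w hw
  choose a ha using fun i => M.span (w i) (hyp_sc hw i)
  have pa : PosT M.G a := by
    have : (Matrix.of fun i j => bil M.G (a i) (a j)) = 1 := by
      ext i j
      rw [Matrix.of_apply, ← M.pair_rep hμ hw ha, ← (ha i).pair hμ hw (hw.smooth i)
        (sc_lc M.sc _).1 (hyp_sc hw j), hn i j, Matrix.one_apply]
    rw [P247G.PosT, this]
    exact Matrix.PosDef.one
  obtain ⟨K, hk⟩ := hPer M.n M.G M.k3 hM a pa fun ρ hρ => by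
    by_contra! k
    obtain ⟨L, hL⟩ := M.int ρ
    refine hR X μ h0 w hw L (fun i => by rw [hL, M.pair_rep hμ hw ha, k]) ?_
    rw [hL, M.pair_lc hμ hw, bil_cs, hρ]
    norm_num
  obtain ⟨w₁, c1, r1⟩ := lift_chain hC1 h0 M hw ha hk
  have hw₁ := c1.hyp hw
  choose δ hδ using fun p : Fin 4 × Fin 4 => hC2 X μ h0 M w₁ hw₁ K.k _ r1 (K.wd p.1 p.2)
  let ε : Fin 4 × Fin 4 ≃ Fin (4 * 4) := finProdFinEquiv
  obtain ⟨w₂, St, hw₂, c2, co, dj, pq⟩ := hS X μ hμ w₁ hw₁ (4 * 4) (fun a => δ (ε.symm a))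
    fun a b hab => sph_disjoint hE hI hP hμ hw₁ (hδ _) (hδ _)
      (by rw [M.pair_lc hμ hw, bil_cs, K.dd]; simp)
      (by rw [M.pair_lc hμ hw, bil_cs, K.dd, if_neg fun k => hab (ε.symm.injective
        (Prod.ext k.1 k.2))]; simp)
  have r2 : M.Rep w₂ K.k := fun i => (co i).trans (r1 i)
  choose C hC using fun i => hC2 X μ h0 M w₂ hw₂ K.k _ r2 (K.wC i)
  choose D hD using fun i => hC2 X μ h0 M w₂ hw₂ K.k _ r2 (K.wD i)
  obtain ⟨P⟩ := hK X μ h0 M K w₂ hw₂ r2 (fun i j => St (ε (i, j)))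
    (fun i j i' j' h => dj _ _ fun k => h (ε.injective k)) (fun i j => by
      have e : (fun ζ => (St (ε (i, j))).p (0, ζ)) = (δ (i, j)).u := funext fun ζ => by
        rw [(pq _ ζ).1, ε.symm_apply_apply]
      rw [e]
      exact hδ (i, j)) C D hC hD
  obtain ⟨w₃, c3, h3⟩ := hT X μ hμ w₂ hw₂ P
  exact hF X μ h0 ⟨M⟩ w w₃ ((c1.trans c2).trans c3) h3 hn

end Vale.Agent.P247X.J
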