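import Vale.Agent.P247O.Openg
import Vale.Agent.P247O.Limk
import Vale.Agent.P247Y.Ratx

/-!
# P247, block Y: row FOLI
-/

set_option linter.all false

open scoped Manifold ContDiff Topology
open Set MeasureTheory Filter Metric Function

noncomputable section

namespace Vale.Agent.P247Y.J

open Vale.Agent.P247.SCY
open Vale.Agent.P247.SCY.HS
open Vale.Agent.P247X
open Vale.Agent.P247.H74 (R4 P2)

variable {X : Type} [Cl4 X] {c : Ctx X} {Y : DC c.St}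

/-- the fixed points on the special leaves -/
def FCtx.pt (f : FCtx c Y) (i k : Fin 4) : Y.Y := if f.b then Y.pt k i else Y.pt i k

/-- the classes of the spheres below the special leaves -/
def FCtx.cl (f : FCtx c Y) (i : Fin 4) : Fin c.M.n → ℤ := if f.b then c.K.D i else c.K.C i

theorem FCtx.Sp_set (f : FCtx c Y) (i : Fin 4) : (f.Sp i).set =
    {y | (y ∈ Y.Yo ∧ Y.pr y ∈ (f.Sph i).set) ∨ ∃ k, y = f.pt i k} := by
  unfold FCtx.Sp FCtx.Sph FCtx.pt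
  split_ifs
  · exact (f.hB i).set
  · exact (f.hA i).set

theorem FCtx.Sp_odd (f : FCtx c Y) (i : Fin 4) (z : ℂ) :
    (f.Sp i).u (-z) = Y.ι ((f.Sp i).u z) := by
  unfold FCtx.Sp
  split_ifs
  · exact (f.hB i).odd z
  · exact (f.hA i).odd z

theorem FCtx.pt_inj (f : FCtx c Y) {i k i' k' : Fin 4} (h : f.pt i k = f.pt i' k') :
    i = i' ∧ k = k' := by
  unfold FCtx.pt at h
  split_ifs at h
  · exact (Y.pt_inj _ _ _ _ h).symm
  · exact Y.pt_inj _ _ _ _ h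

theorem FCtx.pt_not (f : FCtx c Y) (i k : Fin 4) : f.pt i k ∉ Y.Yo := by
  unfold FCtx.pt
  split_ifs <;> exact Y.pt_not _ _

theorem FCtx.cases (f : FCtx c Y) (y : Y.Y) : y ∈ Y.Yo ∨ ∃ i k, y = f.pt i k := by
  refine (Y.cases y).imp_right fun ⟨i, j, h⟩ => ?_
  unfold FCtx.pt
  split_ifs
  · exact ⟨j, i, h⟩
  · exact ⟨i, j, h⟩

theorem FCtx.pt_mem (f : FCtx c Y) (i k : Fin 4) : f.pt i k ∈ (f.Sp i).set := by
  rw [f.Sp_set]
  exact Or.inr ⟨k, rfl⟩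

theorem FCtx.cv_Sph (f : FCtx c Y) (bb : BB) (i : Fin 4) : Cv c (f.Sph i).set (f.cl i) := by
  unfold FCtx.Sph FCtx.cl
  split_ifs
  · exact cv_D c bb i
  · exact cv_C c bb i

theorem FCtx.F_cl (f : FCtx c Y) (i : Fin 4) : c.ip f.F (f.cl i) = 0 := by
  unfold FCtx.F FCtx.cl
  split_ifs
  · exact c.F2_D i
  · exact c.F1_C i

theorem FCtx.cl_cl (f : FCtx c Y) (i : Fin 4) : c.ip (f.cl i) (f.cl i) = -2 := by
  unfold FCtx.cl
  split_ifs
  · simp [Ctx.ip, c.K.DD]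
  · simp [Ctx.ip, c.K.CC]

theorem FCtx.F_F (f : FCtx c Y) : c.ip f.F f.F = 0 := by
  unfold FCtx.F
  split_ifs
  · exact c.F2_F2
  · exact c.F1_F1

theorem FCtx.Sph_disj (f : FCtx c Y) (pre : Pre) {i i' : Fin 4} (h : i ≠ i') :
    Disjoint (f.Sph i).set (f.Sph i').set := by
  unfold FCtx.Sph
  split_ifs
  · exact (pre.geom pre.bb pre.stdb X c.t).CC i i' h
  · exact (pre.geom pre.bb pre.stdb X c).CC i i' h

theorem FCtx.Sp_disj (f : FCtx c Y) (pre : Pre) {i i' : Fin 4} (h : i ≠ i') :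
    Disjoint (f.Sp i).set (f.Sp i').set := by
  rw [f.Sp_set, f.Sp_set, disjoint_left]
  rintro y (⟨k1, k2⟩ | ⟨k, rfl⟩) (⟨k3, k4⟩ | ⟨k', e⟩)
  · exact disjoint_left.1 (f.Sph_disj pre h) k2 k4
  · exact f.pt_not _ _ (e ▸ k1)
  · exact f.pt_not _ _ k3
  · exact h (f.pt_inj e).1

theorem FCtx.Sp_ι (f : FCtx c Y) (i : Fin 4) {y : Y.Y} (h : y ∈ (f.Sp i).set) :
    Y.ι y ∈ (f.Sp i).set := by
  obtain ⟨z, rfl⟩ := h
  exact ⟨-z, f.Sp_odd i z⟩

theorem FCtx.Sp_image (f : FCtx c Y) (i : Fin 4) : Y.ι '' (f.Sp i).set = (f.Sp i).set := by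
  refine subset_antisymm ?_ fun y hy => ⟨_, f.Sp_ι i hy, Y.ι_ι y⟩
  rintro _ ⟨y, hy, rfl⟩
  exact f.Sp_ι i hy

theorem GLeaf.disj_Sp (pre : Pre) (prt : PRT_statement) {f : FCtx c Y} {T : Tor Y.P.J}
    (h : GLeaf f T) (i : Fin 4) : Disjoint T.set (f.Sp i).set := by
  have h1 := (h.cv pre prt).1
  have h2 := (f.cv_Sph pre.bb i).1
  have h3 := h1.disj pre.bb h2 (h1.ne pre.bb h2 (f.cl i) (by rw [f.F_cl, f.cl_cl]; decide))
    (f.F_cl i).le
  exact disjoint_left.2 fun y hy hy' =>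
    disjoint_left.1 h3 (mem_image_of_mem _ hy) ((f.mem_Sp i (h.sub hy)).1 hy')

theorem GLeaf.sub_of (pre : Pre) (prt : PRT_statement) {f : FCtx c Y} {T T' : Tor Y.P.J}
    (h : GLeaf f T) (h' : GLeaf f T') (hn : (T.set ∩ T'.set).Nonempty) : T'.set ⊆ T.set := by
  obtain ⟨y, hy, hy'⟩ := hn
  have e : Y.pr '' T.set = Y.pr '' T'.set := by
    by_contra hne
    exact disjoint_left.1 ((h.cv pre prt).1.disj pre.bb (h'.cv pre prt).1 hne f.F_F.le)
      (mem_image_of_mem _ hy) (mem_image_of_mem _ hy')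
  rcases isPreconnected_iff_subset_of_disjoint_closed.1 (Tor.conn T') T.set (Y.ι '' T.set)
    (Tor.cpt T).isClosed ((Tor.cpt T).image Y.ι_cont).isClosed (fun z hz => by
      obtain ⟨z', k1, k2⟩ : Y.pr z ∈ Y.pr '' T.set := e ▸ mem_image_of_mem _ hz
      rcases Y.pr_eq (h.sub k1) (h'.sub hz) k2 with k | k
      · exact Or.inl (k ▸ k1)
      · exact Or.inr ⟨z', k1, k.symm⟩)
    (by rw [h.disj.inter_eq, inter_empty]) with k | k
  · exact k
  · exact (disjoint_left.1 h.disj hy (k hy')).elim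

theorem GLeaf.iota (pre : Pre) (prt : PRT_statement) {f : FCtx c Y} {T : Tor Y.P.J}
    (h : GLeaf f T) : ∃ T', GLeaf f T' ∧ T'.set = Y.ι '' T.set := by
  obtain ⟨T', -, k⟩ := (prt pre X c Y).2.1 T
  have e : T'.set = Y.ι '' T.set := by
    rw [Tor.set, Tor.set, k, ← range_comp]
    rfl
  have e' : Y.pr '' T'.set = Y.pr '' T.set := by
    rw [e, image_image]
    simp only [Y.pr_ι]
  obtain ⟨K, k1, k2⟩ := h.tor pre prt
  have hs : T'.set ⊆ Y.Yo := by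
    rw [e]
    rintro _ ⟨y, hy, rfl⟩
    exact Y.ι_mem (h.sub hy)
  refine ⟨T', gleaf_of pre prt hs ((Y.injOn_pr hs).2 ?_) (k1.trans e'.symm) k2 (k1 ▸ h.conn), e⟩
  rw [e]
  rintro _ ⟨y, hy, rfl⟩ hy'
  rw [Y.ι_ι] at hy'
  exact disjoint_left.1 h.disj hy hy'

theorem foli : FOLI_statement := by
  intro pre prt hY hN hO hC X _ c Y f
  have fol : ∀ L, Leaf f L → ∃ F : Fol Y.P.J, F.leaf 0 = L ∧
      ∀ y ∈ ball (0 : P2) F.ε, Leaf f (F.leaf y) := by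
    rintro _ (⟨i, rfl⟩ | ⟨T, hT, rfl⟩)
    · exact hN pre prt X c Y f i
    · exact hO pre prt X c Y f T hT
  refine ⟨⟨?_, ?_, fol⟩, ?_⟩
  · have := hY pre.stdb X c Y
    have h1 : IsOpen {y | ∃ L, Leaf f L ∧ y ∈ L} := by
      rw [isOpen_iff_mem_nhds]
      rintro y ⟨L, hL, hy⟩
      obtain ⟨F, rfl, k⟩ := fol L hL
      filter_upwards [((pre.folb Y.Y _ F).1 _ isOpen_ball Subset.rfl).mem_nhds
        (F.leaf_sub (mem_ball_self F.ε_pos) hy)] with z hz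
      obtain ⟨s, hs, hz'⟩ := F.mem_img.1 hz
      exact ⟨_, k s hs, hz'⟩
    have h2 : IsClosed {y | ∃ L, Leaf f L ∧ y ∈ L} := by
      refine isClosed_of_closure_subset fun y hy => ?_
      by_cases hsp : ∃ i, y ∈ (f.Sp i).set
      · obtain ⟨i, hi⟩ := hsp
        exact ⟨_, Or.inl ⟨i, rfl⟩, hi⟩
      push Not at hsp
      have hy' : y ∈ Y.Yo := (f.cases y).resolve_right fun ⟨i, k, e⟩ => hsp i (e ▸ f.pt_mem i k)
      have k1 : closure {y | ∃ L, Leaf f L ∧ y ∈ L} ⊆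
          closure (⋃ i, (f.Sp i).set) ∪ closure {y' | ∃ T, GLeaf f T ∧ y' ∈ T.set} := by
        rw [← closure_union]
        refine closure_mono ?_
        rintro z ⟨_, ⟨i, rfl⟩ | ⟨T, hT, rfl⟩, hz⟩
        · exact Or.inl (mem_iUnion.2 ⟨i, hz⟩)
        · exact Or.inr ⟨T, hT, hz⟩
      rcases k1 hy with k | k
      · rw [(isClosed_iUnion_of_finite fun i => (Tor.cpt (f.Sp i)).isClosed).closure_eq] at k
        obtain ⟨i, hi⟩ := mem_iUnion.1 k
        exact (hsp i hi).elim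
      · obtain ⟨T, hT, hz⟩ := hC pre prt limk RATX X c Y f y hy' hsp k
        exact ⟨_, Or.inr ⟨T, hT, rfl⟩, hz⟩
    have h3 := (isClopen_iff.1 ⟨h2, h1⟩).resolve_left
      (Nonempty.ne_empty ⟨f.pt 0 0, _, Or.inl ⟨0, rfl⟩, f.pt_mem 0 0⟩)
    exact fun y => (h3 ▸ mem_univ y : y ∈ {y | ∃ L, Leaf f L ∧ y ∈ L})
  · rintro _ _ (⟨i, rfl⟩ | ⟨T, hT, rfl⟩) (⟨i', rfl⟩ | ⟨T', hT', rfl⟩) hn
    · by_cases e : i = i'
      · rw [e]
      · exact (hn.ne_empty (f.Sp_disj pre e).inter_eq).elim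
    · exact (hn.ne_empty (hT'.disj_Sp pre prt i).symm.inter_eq).elim
    · exact (hn.ne_empty (hT.disj_Sp pre prt i').inter_eq).elim
    · exact subset_antisymm (hT'.sub_of pre prt hT (inter_comm _ _ ▸ hn)) (hT.sub_of pre prt hT' hn)
  · rintro _ (⟨i, rfl⟩ | ⟨T, hT, rfl⟩)
    · exact Or.inl ⟨i, f.Sp_image i⟩
    · obtain ⟨T', k1, k2⟩ := hT.iota pre prt
      exact Or.inr ⟨T', k1, k2.symm⟩

end Vale.Agent.P247Y.J
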