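import Vale.Agent.P247Y.Mono
import Vale.Agent.P247O.Cv

/-!
# P247, block Y: rows OPENG and CLOSED
-/

set_option linter.all false

open scoped Manifold ContDiff Topology
open Set MeasureTheory Filter Metric Function

noncomputable section

namespace Vale.Agent.P247Y.J

open Vale.Agent.P247.SCY
open Vale.Agent.P247.SCY.HS
open Vale.Agent.P247X
open Vale.Agent.P247.H74 (R4 P2)

variable {X : Type} [Cl4 X] {c : Ctx X} {Y : DC c.St}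

theorem proj_int {T : Tor Y.P.J} {K : Tor (Jw c.w)} (h1 : K.τ = T.τ)
    (h2 : K.u = fun z => Y.pr (T.u z)) :
    K.int = fun φ => ∫ z in para T.τ, pull2 φ (fun z => Y.pr (T.u z)) z := by
  funext φ
  rw [Tor.int, h1, h2]

theorem proj_set {T : Tor Y.P.J} {K : Tor (Jw c.w)} (h2 : K.u = fun z => Y.pr (T.u z)) :
    K.set = Y.pr '' T.set := by
  rw [Tor.set, Tor.set, h2, ← range_comp]
  rfl

theorem GLeaf.tor (pre : Pre) (prt : PRT_statement) {f : FCtx c Y} {T : Tor Y.P.J}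
    (h : GLeaf f T) : ∃ K : Tor (Jw c.w), K.set = Y.pr '' T.set ∧ IsCls c.μ K.int (c.cl f.F) := by
  obtain ⟨K, h1, h2⟩ := (prt pre X c Y).1 T h.sub h.inj
  exact ⟨K, proj_set h2, proj_int h1 h2 ▸ h.cls⟩

theorem GLeaf.cv (pre : Pre) (prt : PRT_statement) {f : FCtx c Y} {T : Tor Y.P.J}
    (h : GLeaf f T) : Cv c (Y.pr '' T.set) f.F := by
  obtain ⟨K, h1, h2⟩ := h.tor pre prt
  exact h1 ▸ cv_tor pre.bb K h2

theorem GLeaf.disj {f : FCtx c Y} {T : Tor Y.P.J} (h : GLeaf f T) :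
    Disjoint T.set (Y.ι '' T.set) := by
  rw [Y.ι_image]
  exact disjoint_left.2 ((Y.injOn_pr h.sub).1 h.inj)

/-- generic leaves from a class -/
theorem gleaf_of (pre : Pre) (prt : PRT_statement) {f : FCtx c Y} {T : Tor Y.P.J}
    (h1 : T.set ⊆ Y.Yo) (h2 : InjOn Y.pr T.set) {K : Tor (Jw c.w)} (h3 : K.set = Y.pr '' T.set)
    (h4 : IsCls c.μ K.int (c.cl f.F)) (h5 : IsPreconnected (f.Z.π ⁻¹' K.set)) : GLeaf f T := by
  obtain ⟨K', k1, k2⟩ := (prt pre X c Y).1 T h1 h2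
  exact ⟨h1, h2, proj_int k1 k2 ▸ tor_cls_congr pre.bb ((proj_set k2).trans h3.symm) h4, h3 ▸ h5⟩

theorem fam_tor (pre : Pre) (prt : PRT_statement) (F : Fol Y.P.J) {y : P2}
    (hy : y ∈ ball (0 : P2) F.ε) (h1 : F.leaf y ⊆ Y.Yo) (h2 : InjOn Y.pr (F.leaf y)) :
    ∃ (T : Tor Y.P.J) (K : Tor (Jw c.w)), T.set = F.leaf y ∧ K.set = Y.pr '' T.set ∧
      ∀ p : P2, K.u (p.1 + p.2 * K.τ) = Y.pr (F.Ψ (y, p)) := by
  obtain ⟨T, -, k⟩ := (pre.folb Y.Y Y.P.J F).2.1 y hy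
  have e := leaf_eq k
  obtain ⟨K, k1, k2⟩ := (prt pre X c Y).1 T (e ▸ h1) (e ▸ h2)
  exact ⟨T, K, e, proj_set k2, fun p => by rw [k1, k2, ← k p]⟩

theorem image_leaf (F : Fol Y.P.J) (y : P2) :
    Y.pr '' F.leaf y = range fun p => Y.pr (F.Ψ (y, p)) := by
  rw [Fol.leaf, ← range_comp]
  rfl

theorem openg : OPENG_statement := by
  intro pre prt X _ c Y f T hT
  obtain ⟨U, V, o1, o2, o3, o4, o5⟩ :=
    SeparatedNhds.of_isCompact_isCompact (Tor.cpt T) ((Tor.cpt T).image Y.ι_cont) hT.disj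
  obtain ⟨F, hO, h0⟩ := pre.fol Y.Y Y.P T (U ∩ Y.ι ⁻¹' V ∩ Y.Yo)
    ((o1.inter (o2.preimage Y.ι_cont)).inter Y.Yo_open)
    fun y hy => ⟨⟨o3 hy, o4 ⟨y, hy, rfl⟩⟩, hT.sub hy⟩
  have e0 : T.set = F.leaf 0 := leaf_eq fun p => (h0 p).symm
  have hsub : F.img ⊆ Y.Yo := fun y hy => (hO hy).2
  have hinj : InjOn Y.pr F.img := (Y.injOn_pr hsub).2 fun y hy hy' =>
    disjoint_left.1 o5 (hO hy').1.1 (hO hy).1.2
  obtain ⟨K₀, k1, k2⟩ := hT.tor pre prt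
  have : Nonempty (Tor (Jw c.w)) := ⟨K₀⟩
  have : Nonempty (Tor Y.P.J) := ⟨T⟩
  choose! Ty Ky a1 a2 a3 using fun y hy => fam_tor pre prt F (y := y) hy
    ((F.leaf_sub hy).trans hsub) (hinj.mono (F.leaf_sub hy))
  have hz : (0 : P2) ∈ ball (0 : P2) F.ε := mem_ball_self F.ε_pos
  have hsm : ContMDiffOn 𝓘(ℝ, P2 × P2) (𝓡 4) ∞ (fun q => Y.pr (F.Ψ q)) (Dom F.ε) :=
    Y.pr_smooth.comp F.smooth fun q hq => hsub ⟨q, hq, rfl⟩
  refine ⟨F, e0.symm, fun y hy => Or.inr ⟨Ty y, gleaf_of pre prt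
    (a1 y hy ▸ (F.leaf_sub hy).trans hsub) (a1 y hy ▸ hinj.mono (F.leaf_sub hy)) (a2 y hy)
    ((prt pre X c Y).2.2.2 _ Ky _ isOpen_ball isPreconnected_ball hsm a3 0 hz y hy _
      (tor_cls_congr pre.bb (by rw [a2 0 hz, a1 0 hz, k1, e0]) k2)) ?_, (a1 y hy).symm⟩⟩
  rw [a2 y hy, a1 y hy, image_leaf]
  refine conn_transfer f.Z pre.lift hsm.continuousOn (fun q hq => Y.pr_mem (hsub ⟨q, hq, rfl⟩))
    (fun q m n => congrArg Y.pr (F.per q.1 q.2 m n)) hz hy (fun p p' e => (F.inj _ (F.zero_mem p) _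
      (F.zero_mem p') (hinj ⟨_, F.zero_mem p, rfl⟩ ⟨_, F.zero_mem p', rfl⟩ e)).2) ?_
  rw [← image_leaf, ← e0]
  exact hT.conn

theorem Xo_open (hS : STDB_statement) (c : Ctx X) : IsOpen (Xo c.St) := by
  have e : Xo c.St = (⋃ i, ⋃ j, (c.St i j).set)ᶜ := by
    ext x
    simp [Xo]
  rw [e]
  exact (isClosed_iUnion_of_finite fun i => isClosed_iUnion_of_finite fun j =>
    (hS X c.w (c.St i j)).2.1.isClosed).isOpen_compl

theorem FCtx.mem_Sp (f : FCtx c Y) (i : Fin 4) {y : Y.Y} (hy : y ∈ Y.Yo) :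
    y ∈ (f.Sp i).set ↔ Y.pr y ∈ (f.Sph i).set := by
  unfold FCtx.Sp FCtx.Sph
  split_ifs
  · rw [(f.hB i).set]
    exact ⟨fun h => h.elim (fun h => h.2) fun ⟨k, e⟩ => (Y.mem_Yo.1 hy _ _ e).elim,
      fun h => Or.inl ⟨hy, h⟩⟩
  · rw [(f.hA i).set]
    exact ⟨fun h => h.elim (fun h => h.2) fun ⟨k, e⟩ => (Y.mem_Yo.1 hy _ _ e).elim,
      fun h => Or.inl ⟨hy, h⟩⟩

theorem limk' (pre : Pre) (hL : LIMK_statement) (f : FCtx c Y) (ι : Type) (𝒰 : Ultrafilter ι)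
    (K : ι → Tor (Jw c.w)) (h1 : ∀ n, IsCls c.μ (K n).int (c.cl f.F)) {x : X} (hx : x ∈ Xo c.St)
    (h2 : ∀ i, x ∉ (f.Sph i).set)
    (h3 : ∀ U ∈ 𝓝 x, ∀ᶠ n in (𝒰 : Filter ι), (U ∩ (K n).set).Nonempty) :
    ∃ L : Set X, x ∈ L ∧ L ⊆ Xo c.St ∧ IsCompact L ∧ ((∃ S : Tor (Jw c.w), S.set = L) ∨ Rat L) ∧
      ∀ O, IsOpen O → L ⊆ O → ∀ᶠ n in (𝒰 : Filter ι), (K n).set ⊆ O := by
  unfold FCtx.F at h1
  unfold FCtx.Sph at h2
  split_ifs at h1 h2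
  · obtain ⟨L, k1, k2, k3⟩ := hL pre X c.t ι 𝒰 K h1 x (fun i j => hx j i) h2 h3
    exact ⟨L, k1, fun y hy i j => k2 hy j i, k3⟩
  · exact hL pre X c ι 𝒰 K h1 x hx h2 h3

/-- the preimage of the projection of a generic leaf in the double covering is not connected -/
theorem not_conn {T : Tor Y.P.J} (h1 : T.set ⊆ Y.Yo) (h2 : InjOn Y.pr T.set) :
    ¬ IsPreconnected (Y.cov.π ⁻¹' (Y.pr '' T.set)) := by
  intro h
  have h3 := (Y.injOn_pr h1).1 h2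
  obtain ⟨y, hy⟩ := Tor.ne T
  obtain ⟨z, rfl⟩ := h1 hy
  have hc := Y.emb_open.continuous
  rcases isPreconnected_iff_subset_of_disjoint_closed.1 h (Y.emb ⁻¹' T.set)
    (Y.emb ⁻¹' (Y.ι ⁻¹' T.set)) ((Tor.cpt T).isClosed.preimage hc)
    (((Tor.cpt T).isClosed.preimage Y.ι_cont).preimage hc) (by
      rintro z' ⟨y', hy', e⟩
      rw [← Y.pr_emb] at e
      rcases Y.pr_eq (h1 hy') ⟨z', rfl⟩ e with k | k
      · exact Or.inl (show Y.emb z' ∈ T.set from k ▸ hy')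
      · refine Or.inr (show Y.ι (Y.emb z') ∈ T.set from ?_)
        rw [k, Y.ι_ι]
        exact hy')
    (eq_empty_of_forall_notMem fun z' hz => h3 _ hz.2.1 hz.2.2) with k | k
  · refine h3 _ hy ?_
    rw [Y.ι_emb]
    exact k ⟨_, hy, by rw [Y.pr_emb, Y.cov.π_act]⟩
  · exact h3 _ hy (k ⟨_, hy, Y.pr_emb z⟩)

theorem closed : CLOSED_statement := by
  intro pre prt hL hR X _ c Y f y hy hsp hcl
  have bb := pre.bb
  let ι := {T : Tor Y.P.J // GLeaf f T}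
  let p : ι × Y.Y → Y.Y := Prod.snd
  have hne : (comap p (𝓝 y) ⊓ 𝓟 {a : ι × Y.Y | a.2 ∈ a.1.1.set}).NeBot := by
    rw [inf_principal_neBot_iff]
    rintro U ⟨t, ht, hU⟩
    obtain ⟨y', k1, T, k2, k3⟩ := mem_closure_iff_nhds.1 hcl t ht
    exact ⟨(⟨T, k2⟩, y'), hU k1, k3⟩
  let 𝒰 := Ultrafilter.of (comap p (𝓝 y) ⊓ 𝓟 {a : ι × Y.Y | a.2 ∈ a.1.1.set})
  have hle := Ultrafilter.of_le (comap p (𝓝 y) ⊓ 𝓟 {a : ι × Y.Y | a.2 ∈ a.1.1.set})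
  choose K k1 k2 using fun a : ι × Y.Y => a.1.2.tor pre prt
  obtain ⟨L, l1, l2, l3, l4, l5⟩ := limk' pre hL f _ 𝒰 K k2 (Y.pr_mem hy)
    (fun i h => hsp i ((f.mem_Sp i hy).2 h)) fun U hU => by
      have u1 : ∀ᶠ a in (𝒰 : Filter (ι × Y.Y)), Y.pr a.2 ∈ U :=
        (hle.trans inf_le_left) (preimage_mem_comap (m := p)
          ((Y.pr_at hy).continuousAt.preimage_mem_nhds hU))
      have u2 : ∀ᶠ a in (𝒰 : Filter (ι × Y.Y)), a.2 ∈ a.1.1.set :=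
        (hle.trans inf_le_right) (mem_principal_self _)
      filter_upwards [u1, u2] with a a1 a2
      exact ⟨_, a1, k1 a ▸ mem_image_of_mem _ a2⟩
  rcases l4 with ⟨S, rfl⟩ | l4
  swap
  · obtain ⟨O, o1, o2, o3⟩ := hR pre.lift X _ f.Z L l2 l4
    obtain ⟨a, ha⟩ := (l5 O o1 o2).exists
    exact (o3 _ ha (Tor.ne _) (k1 a ▸ a.1.2.conn)).elim
  obtain ⟨F, hO, h0⟩ : ∃ F : Fol (Jw c.w), F.img ⊆ Xo c.St ∧
      ∀ p : P2, F.Ψ (0, p) = S.u (p.1 + p.2 * S.τ) :=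
    pre.fol X (pairW c.hw) S _ (Xo_open pre.stdb c) l2
  have fb := pre.folb X _ F
  obtain ⟨a, ha⟩ := (l5 F.img (fb.1 _ isOpen_ball Subset.rfl)
    (leaf_eq (F := F) (fun p => (h0 p).symm) ▸ F.leaf_sub (mem_ball_self F.ε_pos))).exists
  obtain ⟨y₁, hy₁, e₁⟩ := F.maxp (K a) ha
  have hz : (0 : P2) ∈ ball (0 : P2) F.ε := mem_ball_self F.ε_pos
  have e0 : S.set = F.leaf 0 := leaf_eq (F := F) fun p => (h0 p).symm
  have hW : ∀ q ∈ Dom F.ε, F.Ψ q ∈ Xo c.St := fun q hq => hO ⟨q, hq, rfl⟩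
  have hper : ∀ q m n, F.Ψ (sh m n q) = F.Ψ q := fun q m n => F.per q.1 q.2 m n
  have hi : ∀ p p', F.Ψ (y₁, p) = F.Ψ (y₁, p') → ∃ m n : ℤ, p' = (p.1 + m, p.2 + n) :=
    fun p p' e => (F.inj _ (mem_dom.2 hy₁) _ (mem_dom.2 hy₁) e).2
  -- the class
  have : Nonempty (Tor (Jw c.w)) := ⟨S⟩
  choose! Ky b1 b2 using fb.2.1
  have hcls : IsCls c.μ S.int (c.cl f.F) :=
    tor_cls_congr bb (S := Ky 0) (e0.trans (leaf_eq (b2 0 hz)).symm)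
      ((prt pre X c Y).2.2.2 _ Ky _ isOpen_ball isPreconnected_ball F.smooth b2 y₁ hy₁ 0 hz _
        (tor_cls_congr bb (S' := Ky y₁) ((leaf_eq (b2 y₁ hy₁)).trans e₁.symm) (k2 a)))
  have hconn : IsPreconnected (f.Z.π ⁻¹' S.set) := by
    rw [e0]
    refine conn_transfer f.Z pre.lift F.smooth.continuousOn hW hper hy₁ hz hi ?_
    rw [← e₁, k1]
    exact a.1.2.conn
  -- the lift to `Y`
  obtain ⟨g, μ, g1, g2, g3, g4⟩ := lift_fam Y.cov pre.lift F.ε_pos F.smooth.continuousOn hW hper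
  have hμ : ∀ m n, μ m n = 0 := by
    by_contra! h
    obtain ⟨m, n, h⟩ := h
    refine not_conn a.1.2.sub a.1.2.inj ?_
    rw [← k1, e₁, show (fun p => F.Ψ (y₁, p)) = fun p => Y.cov.π (g (y₁, p)) from
      funext fun p => (g3 _ (mem_dom.2 hy₁)).symm]
    refine conn_of_onto Y.cov (cont_slice g2 fun p => mem_dom.2 hy₁) (μ := μ)
      (fun p m n => g4 (y₁, p) (mem_dom.2 hy₁) m n) fun b => ?_
    by_cases hb : b = 0
    · exact ⟨0, 0, by simpa [hb] using g1.mul 0 0 0⟩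
    · refine ⟨m, n, ?_⟩
      revert h hb
      generalize μ m n = t
      revert b t
      decide
  obtain ⟨z₀, rfl⟩ := hy
  rw [Y.pr_emb, e0] at l1
  obtain ⟨p₀, hp₀⟩ := l1
  obtain ⟨b, hb⟩ := Y.cov.trans (g (0, p₀)) z₀ ((g3 _ (F.zero_mem _)).trans hp₀)
  let ψ : ℂ → P2 := fun z => (z.re - z.im / S.τ.im * S.τ.re, z.im / S.τ.im)
  have hψ : ∀ z, cz S.τ (ψ z) = z := fun z => by
    have := S.τ_pos.ne'
    refine Complex.ext ?_ ?_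
    · simp only [cz, ψ, Complex.add_re, Complex.ofReal_re, Complex.re_ofReal_mul]
      ring
    · simp only [cz, ψ, Complex.add_im, Complex.ofReal_im, Complex.im_ofReal_mul]
      field_simp
      ring
  have hψ' : ∀ p, ψ (cz S.τ p) = p := fun p => cz_inj S.τ_pos (hψ _)
  have hψc : Continuous ψ := by fun_prop
  let u : ℂ → Y.Y := fun z => Y.emb (Y.cov.act b (g (0, ψ z)))
  have hpr : ∀ z, Y.pr (u z) = S.u z := fun z => by
    rw [Y.pr_emb, Y.cov.π_act, g3 _ (F.zero_mem _), h0]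
    exact congrArg S.u (hψ z)
  obtain ⟨T, t1, t2⟩ := (prt pre X c Y).2.2.1 S u (Y.emb_open.continuous.comp
    ((Y.cov.act_cont b).comp ((cont_slice g2 F.zero_mem).comp hψc))) (fun z => ⟨_, rfl⟩) hpr
    fun m n z => by
      have e : ψ (z + m + n * S.τ) = ((ψ z).1 + m, (ψ z).2 + n) := by
        rw [← hψ' ((ψ z).1 + m, (ψ z).2 + n), cz_add, hψ]
      have e' := g4 (0, ψ z) (F.zero_mem _) m n
      rw [hμ, Y.cov.act_zero] at e'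
      simp only [u]
      rw [e]
      exact congrArg (fun z => Y.emb (Y.cov.act b z)) e'
  refine ⟨T, gleaf_of pre prt (K := S) ?_ ?_ ?_ hcls hconn, cz S.τ p₀, ?_⟩
  · rintro _ ⟨z, rfl⟩
    rw [t2]
    exact ⟨_, rfl⟩
  · rintro _ ⟨z, rfl⟩ _ ⟨z', rfl⟩ e
    rw [t2, hpr, hpr] at e
    obtain ⟨m, n, rfl⟩ := S.inj _ _ e
    rw [← t1, T.per]
  · refine proj_set (funext fun z => ?_)
    rw [t2, hpr]
  · rw [t2, hb]
    simp only [u, hψ']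

end Vale.Agent.P247Y.J
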